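import Vale.Agent.P247.H690.END.Sta

/-!
# P247, stage 2, package Z, `CLASS`, part 1: comparison of two embeddings of the same surface
-/

open scoped ContDiff Topology
open Set MeasureTheory Filter Metric

noncomputable section

namespace Vale.Agent.P247.H663.Cls

open Vale.Agent.P247.H74 Vale.Agent.P247.H574 Vale.Agent.P247.H690.END

/-- the determinant of a real linear map of `ℂ` -/
theorem det_eq (M : ℂ →L[ℝ] ℂ) :
    M.det = (M 1).re * (M Complex.I).im - (M Complex.I).re * (M 1).im := by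
  have h := LinearMap.det_toMatrix Complex.basisOneI (M : ℂ →ₗ[ℝ] ℂ)
  rw [ContinuousLinearMap.det, ← h, Matrix.det_fin_two]
  simp [LinearMap.toMatrix_apply, Complex.coe_basisOneI]

/-- a real linear map of `ℂ` on `z` -/
theorem lin_eq (M : ℂ →L[ℝ] R4) (z : ℂ) : M z = z.re • M 1 + z.im • M Complex.I := by
  conv_lhs => rw [← Complex.re_add_im z]
  rw [map_add]
  have h1 : ((z.re : ℝ) : ℂ) = z.re • (1 : ℂ) := by simp
  have h2 : ((z.im : ℝ) : ℂ) * Complex.I = z.im • Complex.I := by simp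
  rw [h1, h2, map_smul, map_smul]

/-- `u` and `J u` are independent -/
theorem J_indep (D : Data) (x a : R4) (ha : a ≠ 0) (s t : ℝ) (h : s • a + t • D.J x a = 0) :
    s = 0 ∧ t = 0 := by
  have h2 : s • D.J x a - t • a = 0 := by
    have := congrArg (D.J x) h
    rw [map_add, map_smul, map_smul, D.J_sq, map_zero] at this
    rw [← this]; module
  have h3 : (s ^ 2 + t ^ 2) • a = 0 := by
    have : (s ^ 2 + t ^ 2) • a = s • (s • a + t • D.J x a) - t • (s • D.J x a - t • a) := by module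
    rw [this, h, h2]; simp
  have h4 := (smul_eq_zero.1 h3).resolve_right ha
  constructor <;> nlinarith [sq_nonneg s, sq_nonneg t]

/-- the change of variables on tangent vectors -/
theorem tangent (D : Data) (x : R4) (L : ℂ →L[ℝ] R4) (M : ℂ →L[ℝ] ℂ)
    (hL : L 1 ≠ 0) (hJ : L Complex.I = D.J x (L 1)) (hne : L (M 1) ≠ 0)
    (hor : ∃ a b : ℝ, 0 < b ∧ L (M Complex.I) = a • L (M 1) + b • D.J x (L (M 1))) :
    0 < M.det ∧ ∀ φ : F2, (∀ u, φ u u = 0) →
      φ (L (M 1)) (L (M Complex.I)) = M.det * φ (L 1) (L Complex.I) := by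
  obtain ⟨a, b, hb, h⟩ := hor
  rw [lin_eq L (M Complex.I), lin_eq L (M 1), hJ] at h
  have hJ1 : D.J x ((M 1).re • L 1 + (M 1).im • D.J x (L 1)) =
      (M 1).re • D.J x (L 1) - (M 1).im • L 1 := by
    rw [map_add, map_smul, map_smul, D.J_sq]; module
  rw [hJ1] at h
  have h0 : ((M Complex.I).re - (a * (M 1).re - b * (M 1).im)) • L 1 +
      ((M Complex.I).im - (a * (M 1).im + b * (M 1).re)) • D.J x (L 1) = 0 := by
    rw [← sub_eq_zero] at h
    rw [← h]; module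
  obtain ⟨h1, h2⟩ := J_indep D x _ hL _ _ h0
  have hdet : M.det = b * ((M 1).re ^ 2 + (M 1).im ^ 2) := by
    rw [det_eq]
    have e1 : (M Complex.I).re = a * (M 1).re - b * (M 1).im := by linarith
    have e2 : (M Complex.I).im = a * (M 1).im + b * (M 1).re := by linarith
    rw [e1, e2]; ring
  have hM1 : M 1 ≠ 0 := fun h => hne (by rw [h, map_zero])
  refine ⟨?_, ?_⟩
  · rw [hdet]
    apply mul_pos hb
    have : 0 < Complex.normSq (M 1) := Complex.normSq_pos.2 hM1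
    rw [Complex.normSq_apply] at this
    nlinarith
  · intro φ hφ
    have hsw : ∀ u v, φ v u = - φ u v := by
      intro u v
      have := hφ (u + v)
      simp only [map_add, add_apply] at this
      rw [hφ u, hφ v] at this
      linarith
    rw [lin_eq L (M Complex.I), lin_eq L (M 1), det_eq]
    simp only [map_add, map_smul, add_apply, smul_apply,
      smul_eq_mul]
    rw [hφ (L 1), hφ (L Complex.I), hsw (L 1) (L Complex.I)]
    ring

/-- the linear left inverse of an injective linear map -/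
theorem exists_left (L : ℂ →L[ℝ] R4) (hL : Function.Injective L) :
    ∃ A : R4 →L[ℝ] ℂ, ∀ z, A (L z) = z := by
  obtain ⟨g, hg⟩ := LinearMap.exists_leftInverse_of_injective (L : ℂ →ₗ[ℝ] R4)
    (LinearMap.ker_eq_bot.2 hL)
  refine ⟨LinearMap.toContinuousLinearMap g, fun z => ?_⟩
  have := LinearMap.congr_fun hg z
  simpa using this

theorem isClosed_supp {D : Data} (S : ICur D) : IsClosed S.supp := by
  rw [← isOpen_compl_iff, Metric.isOpen_iff]
  intro x hx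
  simp only [ICur.supp, mem_compl_iff, mem_ofPred_eq, not_forall, not_exists, not_and, not_not] at hx
  obtain ⟨ε, hε, h⟩ := hx
  refine ⟨ε, hε, fun y hy => ?_⟩
  simp only [ICur.supp, mem_compl_iff, mem_ofPred_eq, not_forall, not_exists, not_and, not_not]
  refine ⟨ε - dist y x, by rw [mem_ball] at hy; linarith, fun φ hφ hs => ?_⟩
  refine h φ hφ (hs.trans (ball_subset_ball' ?_))
  linarith

/-- near a point of `W` the current is the integral over `W` -/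
theorem cov {D : Data} {S : ICur D} {x : R4} {u : ℂ → R4} {k : ℕ} {ε : ℝ} (h : RegD S x u k ε)
    {W : ℂ → R4} (hW : ContDiff ℝ ∞ W) (hmem : ∀ z, W z ∈ S.supp)
    (hne : ∀ z, fderiv ℝ W z 1 ≠ 0)
    (hor : ∀ z, ∃ a b : ℝ, 0 < b ∧ fderiv ℝ W z Complex.I =
      a • fderiv ℝ W z 1 + b • D.J (W z) (fderiv ℝ W z 1))
    {z₀ : ℂ} {A : Set ℂ} (hA : IsOpen A) (hz₀ : z₀ ∈ A) (hinj : InjOn W A)
    (hopn : ∀ ρ > 0, W '' ball z₀ ρ ∈ 𝓝[S.supp] (W z₀)) (hx : W z₀ ∈ ball x ε) :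
    ∃ δ > 0, ∀ φ, CF φ → tsupport φ ⊆ ball (W z₀) δ →
      S.T φ = k * ∫ z in A, φ (W z) (fderiv ℝ W z 1) (fderiv ℝ W z Complex.I) := by
  obtain ⟨ζ₀, hζ₀, hu0⟩ := (h.supp _ hx).1 (hmem z₀)
  have h12 : ball (0 : ℂ) 1 ⊆ ball 0 2 := ball_subset_ball (by norm_num)
  have hc12 : closedBall (0 : ℂ) 1 ⊆ ball 0 2 := closedBall_subset_ball (by norm_num)
  have hud : ∀ ζ ∈ ball (0 : ℂ) 2, ContDiffAt ℝ ∞ u ζ := fun ζ hζ =>
    h.disc.smooth.contDiffAt (isOpen_ball.mem_nhds hζ)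
  have hLinj : Function.Injective (fderiv ℝ u ζ₀) := by
    rw [injective_iff_map_eq_zero]
    intro z hz
    rw [lin_eq, h.disc.hol _ (h12 hζ₀)] at hz
    obtain ⟨h1, h2⟩ := J_indep D _ _ (h.imm _ (h12 hζ₀)) _ _ hz
    exact Complex.ext h1 h2
  obtain ⟨Al, hAl⟩ := exists_left _ hLinj
  set f : ℂ → ℂ := fun ζ => Al (u ζ) with hfdef
  have hfcd : ContDiffAt ℝ ∞ f ζ₀ := Al.contDiff.contDiffAt.comp _ (hud _ (h12 hζ₀))
  have hfd : HasFDerivAt f ((ContinuousLinearEquiv.refl ℝ ℂ : ℂ ≃L[ℝ] ℂ) : ℂ →L[ℝ] ℂ) ζ₀ := by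
    have h1 := Al.hasFDerivAt.comp ζ₀ ((hud _ (h12 hζ₀)).differentiableAt (by simp)).hasFDerivAt
    have h2 : Al.comp (fderiv ℝ u ζ₀) = ((ContinuousLinearEquiv.refl ℝ ℂ : ℂ ≃L[ℝ] ℂ) : ℂ →L[ℝ] ℂ) :=
      ContinuousLinearMap.ext fun z => by
        rw [ContinuousLinearMap.comp_apply, hAl]; rfl
    rw [h2] at h1
    exact h1
  have hst := hfcd.hasStrictFDerivAt' hfd (by simp)
  set G := hst.localInverse f _ ζ₀ with hG
  have hGl : ∀ᶠ ζ in 𝓝 ζ₀, G (f ζ) = ζ := hst.eventually_left_inverse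
  have hGs : ContDiffAt ℝ ∞ G (f ζ₀) := ContDiffAt.to_localInverse hfcd hfd (by simp)
  -- continuity of the transition
  have hcont : ∀ᶠ z in 𝓝 z₀, ∀ ζ ∈ ball (0 : ℂ) 1, u ζ = W z → G (f ζ) = ζ := by
    obtain ⟨N, hN, hNo, hζN⟩ := _root_.mem_nhds_iff.1 hGl
    have hK : IsCompact (closedBall (0 : ℂ) 1 \ N) := (isCompact_closedBall _ _).diff hNo
    have huK : IsCompact (u '' (closedBall (0 : ℂ) 1 \ N)) :=
      hK.image_of_continuousOn (h.disc.smooth.continuousOn.mono (sdiff_subset.trans hc12))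
    have hnot : W z₀ ∉ u '' (closedBall (0 : ℂ) 1 \ N) := by
      rintro ⟨ζ, hζ, he⟩
      have : ζ = ζ₀ := h.inj (hc12 hζ.1) (h12 hζ₀) (he.trans hu0.symm)
      exact hζ.2 (this ▸ hζN)
    have := hW.continuous.continuousAt.eventually (huK.isClosed.isOpen_compl.mem_nhds hnot)
    filter_upwards [this] with z hz ζ hζ he
    by_contra hc
    exact hz ⟨ζ, ⟨ball_subset_closedBall hζ, fun hn => hc (hN hn)⟩, he⟩
  set τ : ℂ → ℂ := fun z => G (Al (W z)) with hτ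
  have hτs : ContDiffAt ℝ ∞ τ z₀ := by
    have h1 : ContDiffAt ℝ ∞ (fun z => Al (W z)) z₀ := Al.contDiff.contDiffAt.comp _ hW.contDiffAt
    have h2 : ContDiffAt ℝ ∞ G (Al (W z₀)) := by rw [← hu0]; exact hGs
    exact ContDiffAt.comp z₀ h2 h1
  have hτd : ∀ᶠ z in 𝓝 z₀, DifferentiableAt ℝ τ z := by
    have h1 : ContDiffAt ℝ 1 τ z₀ := hτs.of_le (by exact_mod_cast le_top)
    filter_upwards [h1.eventually (by simp)] with z hz using hz.differentiableAt (by simp)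
  have hev : ∀ᶠ z in 𝓝 z₀, τ z ∈ ball (0 : ℂ) 1 ∧ u (τ z) = W z := by
    filter_upwards [hcont, hW.continuous.continuousAt.eventually (isOpen_ball.mem_nhds hx)]
      with z h1 h2
    obtain ⟨ζ, hζ, he⟩ := (h.supp _ h2).1 (hmem z)
    have h3 : τ z = ζ := by
      rw [hτ]; simp only; rw [← he]; exact h1 ζ hζ he
    rw [h3]; exact ⟨hζ, he⟩
  obtain ⟨ρ, hρ, hB⟩ := Metric.eventually_nhds_iff_ball.1
    ((hτd.and hev).and (hA.mem_nhds hz₀ : ∀ᶠ z in 𝓝 z₀, z ∈ A))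
  obtain ⟨δ₁, hδ₁, hd1⟩ := Metric.mem_nhdsWithin_iff.1 (hopn ρ hρ)
  obtain ⟨δ₂, hδ₂, hd2⟩ := Metric.isOpen_iff.1 isOpen_ball _ hx
  refine ⟨min δ₁ δ₂, lt_min hδ₁ hδ₂, fun φ hφ hsup => ?_⟩
  have hs1 : tsupport φ ⊆ ball (W z₀) δ₁ := hsup.trans (ball_subset_ball (min_le_left _ _))
  have hs2 : tsupport φ ⊆ ball x ε := (hsup.trans (ball_subset_ball (min_le_right _ _))).trans hd2
  have hB1 : ball z₀ ρ ⊆ A := fun z hz => (hB z hz).2
  have hτinj : InjOn τ (ball z₀ ρ) := by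
    intro z hz z' hz' he
    apply hinj (hB1 hz) (hB1 hz')
    rw [← (hB z hz).1.2.2, ← (hB z' hz').1.2.2, he]
  have hfd' : ∀ z ∈ ball z₀ ρ, fderiv ℝ W z = (fderiv ℝ u (τ z)).comp (fderiv ℝ τ z) := by
    intro z hz
    have h1 : W =ᶠ[𝓝 z] u ∘ τ := by
      filter_upwards [isOpen_ball.mem_nhds hz] with z' hz'
      exact (hB z' hz').1.2.2.symm
    rw [h1.fderiv_eq]
    exact fderiv_comp z ((hud _ (h12 (hB z hz).1.2.1)).differentiableAt (by simp)) (hB z hz).1.1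
  have htan : ∀ z ∈ ball z₀ ρ, 0 < (fderiv ℝ τ z).det ∧
      φ (W z) (fderiv ℝ W z 1) (fderiv ℝ W z Complex.I) = (fderiv ℝ τ z).det *
        φ (u (τ z)) (fderiv ℝ u (τ z) 1) (fderiv ℝ u (τ z) Complex.I) := by
    intro z hz
    have hz2 : τ z ∈ ball (0 : ℂ) 2 := h12 (hB z hz).1.2.1
    have h1 := hne z
    have h2 := hor z
    rw [hfd' z hz] at h1 h2 ⊢
    rw [← (hB z hz).1.2.2] at h2 ⊢
    obtain ⟨h3, h4⟩ := tangent D (u (τ z)) (fderiv ℝ u (τ z)) (fderiv ℝ τ z) (h.imm _ hz2)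
      (h.disc.hol _ hz2) h1 h2
    exact ⟨h3, h4 _ (hφ.alt _)⟩
  rw [h.val φ hφ hs2]
  congr 1
  calc ∫ ζ in ball (0 : ℂ) 1, φ (u ζ) (fderiv ℝ u ζ 1) (fderiv ℝ u ζ Complex.I)
      = ∫ ζ in τ '' ball z₀ ρ, φ (u ζ) (fderiv ℝ u ζ 1) (fderiv ℝ u ζ Complex.I) := by
        apply setIntegral_eq_of_subset_of_forall_sdiff_eq_zero measurableSet_ball
        · rintro _ ⟨z, hz, rfl⟩; exact (hB z hz).1.2.1
        · rintro ζ ⟨hζ, hζ'⟩
          by_contra hc
          have h1 : φ (u ζ) ≠ 0 := fun h0 => hc (by simp [h0])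
          have h2 : u ζ ∈ tsupport φ := subset_tsupport _ h1
          have h3 : u ζ ∈ S.supp := (h.supp _ (hs2 h2)).2 ⟨ζ, hζ, rfl⟩
          obtain ⟨z, hz, he⟩ := hd1 ⟨hs1 h2, h3⟩
          apply hζ'
          refine ⟨z, hz, h.inj (h12 (hB z hz).1.2.1) (h12 hζ) ?_⟩
          rw [(hB z hz).1.2.2, he]
    _ = ∫ z in ball z₀ ρ, |(fderiv ℝ τ z).det| •
          (φ (u (τ z)) (fderiv ℝ u (τ z) 1) (fderiv ℝ u (τ z) Complex.I)) := by
        rw [integral_image_eq_integral_abs_det_fderiv_smul volume measurableSet_ball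
          (fun z hz => (hB z hz).1.1.hasFDerivAt.hasFDerivWithinAt) hτinj]
    _ = ∫ z in ball z₀ ρ, φ (W z) (fderiv ℝ W z 1) (fderiv ℝ W z Complex.I) := by
        apply setIntegral_congr_fun measurableSet_ball
        intro z hz
        obtain ⟨h1, h2⟩ := htan z hz
        simp only
        rw [h2, abs_of_pos h1, smul_eq_mul]
    _ = ∫ z in A, φ (W z) (fderiv ℝ W z 1) (fderiv ℝ W z Complex.I) := by
        symm
        apply setIntegral_eq_of_subset_of_forall_sdiff_eq_zero hA.measurableSet hB1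
        rintro z ⟨hz, hz'⟩
        by_contra hc
        have h1 : φ (W z) ≠ 0 := fun h0 => hc (by simp [h0])
        have h2 : W z ∈ tsupport φ := subset_tsupport _ h1
        obtain ⟨z', hz1, he⟩ := hd1 ⟨hs1 h2, hmem z⟩
        exact hz' (hinj (hB1 hz1) hz he ▸ hz1)

end Vale.Agent.P247.H663.Cls
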