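import Vale.Agent.P247.H663.Cls1
import Vale.Agent.P247.H690.END.Basic

/-!
# P247, stage 2, package Z, `CLASS`, part 2: translates of tori, the multiplicity is well defined
-/

open scoped ContDiff Topology
open Set MeasureTheory Filter Metric

noncomputable section

namespace Vale.Agent.P247.H663.Cls

open Vale.Agent.P247.H74 Vale.Agent.P247.H574 Vale.Agent.P247.H690.END

/-! ## translations -/

theorem tr_neg_tr (q : Fin 4 → ℤ) (x : R4) : tr (-q) (tr q x) = x := by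
  rw [tr_add, neg_add_cancel, tr_zero]

theorem tr_tr_neg (q : Fin 4 → ℤ) (x : R4) : tr q (tr (-q) x) = x := by
  rw [tr_add, add_neg_cancel, tr_zero]

theorem dist_tr (q : Fin 4 → ℤ) (x y : R4) : dist (tr q x) (tr q y) = dist x y := by
  rw [dist_eq_norm, tr_sub, dist_eq_norm]

theorem dist_tr_left (q : Fin 4 → ℤ) (x y : R4) : dist (tr q x) y = dist x (tr (-q) y) := by
  rw [← dist_tr q x, tr_tr_neg]

theorem tr_fun (q : Fin 4 → ℤ) : tr q = fun x => x + fun i => (q i : ℝ) := funext (tr_eq q)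

theorem tr_contDiff (q : Fin 4 → ℤ) : ContDiff ℝ ∞ (tr q) := by
  rw [tr_fun]; fun_prop

/-- translation as a homeomorphism -/
def trH (q : Fin 4 → ℤ) : R4 ≃ₜ R4 where
  toFun := tr q
  invFun := tr (-q)
  left_inv := tr_neg_tr q
  right_inv := tr_tr_neg q
  continuous_toFun := tr_continuous q
  continuous_invFun := tr_continuous (-q)

/-- translating test forms -/
theorem CF_tr {φ : R4 → F2} (hφ : CF φ) (q : Fin 4 → ℤ) : CF fun x => φ (tr q x) :=
  ⟨hφ.cont.comp (tr_continuous q), hφ.supp.comp_isClosedEmbedding (trH q).isClosedEmbedding,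
    fun _ u => hφ.alt _ u⟩

theorem tsupport_tr {φ : R4 → F2} (q : Fin 4 → ℤ) {x : R4} {ε : ℝ} (h : tsupport φ ⊆ ball x ε) :
    tsupport (fun y => φ (tr q y)) ⊆ ball (tr (-q) x) ε := by
  intro y hy
  have h1 : tsupport (fun y => φ (tr q y)) ⊆ tr q ⁻¹' tsupport φ := by
    apply closure_minimal
    · intro z hz
      exact subset_tsupport _ hz
    · exact (isClosed_tsupport φ).preimage (tr_continuous q)
  have h2 := h (h1 hy)
  rw [mem_ball, dist_tr_left] at h2
  exact h2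

theorem supp_tr {D : Data} (S : ICur D) (q : Fin 4 → ℤ) {x : R4} (hx : x ∈ S.supp) :
    tr q x ∈ S.supp := by
  intro ε hε
  obtain ⟨φ, hφ, hs, h0⟩ := hx ε hε
  refine ⟨fun y => φ (tr (-q) y), CF_tr hφ _, ?_, ?_⟩
  · have := tsupport_tr (-q) hs
    rwa [neg_neg] at this
  · rw [S.per φ hφ]; exact h0

theorem supp_tr_iff {D : Data} (S : ICur D) (q : Fin 4 → ℤ) {x : R4} :
    tr q x ∈ S.supp ↔ x ∈ S.supp := by
  refine ⟨fun h => ?_, supp_tr S q⟩
  have := supp_tr S (-q) h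
  rwa [tr_neg_tr] at this

/-- translates of discs -/
theorem RegD_tr {D : Data} {S : ICur D} {x : R4} {u : ℂ → R4} {k : ℕ} {ε : ℝ}
    (h : RegD S x u k ε) (q : Fin 4 → ℤ) : RegD S (tr q x) (fun z => tr q (u z)) k ε := by
  have hf : ∀ z, fderiv ℝ (fun z => tr q (u z)) z = fderiv ℝ u z := by
    intro z
    have : (fun z => tr q (u z)) = fun z => u z + fun i => (q i : ℝ) := by
      rw [tr_fun]
    rw [this, fderiv_add_const]
  refine ⟨h.pos, h.one, ⟨(tr_contDiff q).comp_contDiffOn h.disc.smooth, fun z hz => ?_⟩, ?_, ?_, ?_,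
    ?_, ?_, ?_⟩
  · rw [hf, h.disc.hol z hz]
    congr 1
    exact (D.J_per q (u z)).symm
  · simp only [h.zero]
  · intro z hz
    rw [hf]; exact h.imm z hz
  · intro z hz w hw he
    exact h.inj hz hw ((trH q).injective he)
  · intro z hz h1
    rw [dist_tr]; exact h.far z hz h1
  · intro y hy
    have h1 : tr (-q) y ∈ ball x ε := by
      rw [mem_ball, dist_tr_left, neg_neg]; exact hy
    rw [← supp_tr_iff S (-q), h.supp _ h1]
    constructor
    · rintro ⟨z, hz, he⟩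
      exact ⟨z, hz, by simp only [he, tr_tr_neg]⟩
    · rintro ⟨z, hz, he⟩
      exact ⟨z, hz, by rw [← he, tr_neg_tr]⟩
  · intro φ hφ hs
    have h1 := tsupport_tr q hs
    rw [tr_neg_tr] at h1
    have h2 := h.val _ (CF_tr hφ q) h1
    rw [S.per φ hφ] at h2
    rw [h2]
    simp only [hf]

/-! ## the parametrisation of a torus by `ℂ` -/

/-- the translate by `q` of the torus, on `ℂ` -/
def WW {D : Data} {C : Set R4} (T : Tor D C) (q : Fin 4 → ℤ) (z : ℂ) : R4 := tr q (T.i (z.re, z.im))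

section WW

variable {D : Data} {C : Set R4} (T : Tor D C) (q : Fin 4 → ℤ)

theorem WW_contDiff : ContDiff ℝ ∞ (WW T q) :=
  (tr_contDiff q).comp (T.smooth.comp Complex.equivRealProdCLM.contDiff)

theorem WW_fderiv (z v : ℂ) : fderiv ℝ (WW T q) z v = fderiv ℝ T.i (z.re, z.im) (v.re, v.im) := by
  have h1 : WW T q = fun z => T.i (Complex.equivRealProdCLM z) + fun i => (q i : ℝ) := by
    funext z
    simp only [WW, tr_eq]
    rfl
  have h2 : HasFDerivAt (fun z => T.i (Complex.equivRealProdCLM z))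
      ((fderiv ℝ T.i (Complex.equivRealProdCLM z)).comp
        (Complex.equivRealProdCLM : ℂ →L[ℝ] ℝ × ℝ)) z :=
    (T.smooth.differentiable (by simp) _).hasFDerivAt.comp z
      (Complex.equivRealProdCLM : ℂ →L[ℝ] ℝ × ℝ).hasFDerivAt
  rw [h1, (h2.add_const _).fderiv]
  rfl

theorem WW_one (z : ℂ) : fderiv ℝ (WW T q) z 1 = ds T.i (z.re, z.im) := by
  rw [WW_fderiv]; rfl

theorem WW_I (z : ℂ) : fderiv ℝ (WW T q) z Complex.I = dt T.i (z.re, z.im) := by
  rw [WW_fderiv]; rfl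

theorem WW_ne (z : ℂ) : fderiv ℝ (WW T q) z 1 ≠ 0 := by
  rw [WW_one]; exact T.ne _

theorem WW_or (z : ℂ) : ∃ a b : ℝ, 0 < b ∧ fderiv ℝ (WW T q) z Complex.I =
    a • fderiv ℝ (WW T q) z 1 + b • D.J (WW T q z) (fderiv ℝ (WW T q) z 1) := by
  obtain ⟨a, b, hb, h⟩ := T.hol (z.re, z.im)
  refine ⟨a, b, hb, ?_⟩
  have h1 : D.J (WW T q z) = D.J (T.i (z.re, z.im)) := D.J_per q _
  rw [WW_one, WW_I, h, h1]

/-- the square of side one centred at `p` -/
def Sq (p : P2) : Set P2 := {r | |r.1 - p.1| < 1 / 2 ∧ |r.2 - p.2| < 1 / 2}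

theorem int_zero {a : ℤ} (h : |(a : ℝ)| < 1) : a = 0 := by
  have h1 : |a| < 1 := by exact_mod_cast h
  exact Int.abs_lt_one_iff.1 h1

/-- points of the torus in the square -/
theorem Tor.sq {p r r' : P2} {ρ : ℝ} (hρ : ρ ≤ 1 / 2) (h : r ∈ Sq p) (h' : r' ∈ closedBall p ρ)
    {k : Fin 4 → ℤ} (he : T.i r = tr k (T.i r')) : r = r' ∧ k = 0 := by
  obtain ⟨a, b, hab⟩ := T.inj r r' k he
  rw [mem_closedBall, Prod.dist_eq, max_le_iff, Real.dist_eq, Real.dist_eq] at h'
  have e1 := congrArg Prod.fst hab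
  have e2 := congrArg Prod.snd hab
  simp only at e1 e2
  obtain ⟨h1, h2⟩ := h
  obtain ⟨h3, h4⟩ := h'
  have ha : a = 0 := by
    apply int_zero
    rw [abs_lt] at h1 ⊢
    rw [abs_le] at h3
    constructor <;> linarith
  have hb : b = 0 := by
    apply int_zero
    rw [abs_lt] at h2 ⊢
    rw [abs_le] at h4
    constructor <;> linarith
  subst ha; subst hb
  have hr : r = r' := by
    rw [hab]
    ext <;> simp
  refine ⟨hr, ?_⟩
  subst hr
  have : tr 0 (T.i r) = tr k (T.i r) := by rw [tr_zero]; exact he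
  exact (tr_inj this).symm

end WW

/-- translating neighbourhoods in the support -/
theorem nhds_tr {D : Data} (S : ICur D) (q : Fin 4 → ℤ) {x : R4} {N : Set R4}
    (h : N ∈ 𝓝[S.supp] x) : tr q '' N ∈ 𝓝[S.supp] (tr q x) := by
  rw [Metric.mem_nhdsWithin_iff] at h ⊢
  obtain ⟨ε, hε, h⟩ := h
  refine ⟨ε, hε, ?_⟩
  rintro y ⟨hy, hs⟩
  refine ⟨tr (-q) y, h ⟨?_, supp_tr S _ hs⟩, tr_tr_neg q y⟩
  rw [mem_ball, dist_tr_left, neg_neg]; exact hy

/-- near `y` the current has multiplicity `k` -/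
def Mul {D : Data} (S : ICur D) (y : R4) (k : ℕ) : Prop :=
  ∃ (x : R4) (u : ℂ → R4) (ε : ℝ), RegD S x u k ε ∧ y ∈ ball x ε

theorem Mul_tr {D : Data} {S : ICur D} {y : R4} {k : ℕ} (h : Mul S y k) (q : Fin 4 → ℤ) :
    Mul S (tr q y) k := by
  obtain ⟨x, u, ε, h1, h2⟩ := h
  exact ⟨_, _, ε, RegD_tr h1 q, by rw [mem_ball, dist_tr]; exact h2⟩

theorem isOpen_Sq (p : P2) : IsOpen (Sq p) := by
  have h1 : IsOpen {r : P2 | |r.1 - p.1| < 1 / 2} := isOpen_lt (by fun_prop) (by fun_prop)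
  have h2 : IsOpen {r : P2 | |r.2 - p.2| < 1 / 2} := isOpen_lt (by fun_prop) (by fun_prop)
  exact h1.inter h2

theorem mem_Sq (p : P2) : p ∈ Sq p := by
  constructor <;> simp

theorem Sq_sub (p : P2) : Sq p ⊆ closedBall p (1 / 2) := by
  rintro r ⟨h1, h2⟩
  rw [mem_closedBall, Prod.dist_eq, max_le_iff, Real.dist_eq, Real.dist_eq]
  exact ⟨h1.le, h2.le⟩

/-- the integral over the square, in `ℂ` -/
theorem int_Sq (p : P2) (F : P2 → ℝ) :
    ∫ z in {z : ℂ | (z.re, z.im) ∈ Sq p}, F (z.re, z.im) = ∫ r in Sq p, F r := by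
  have := Complex.volume_preserving_equiv_real_prod.setIntegral_preimage_emb
    Complex.measurableEquivRealProd.measurableEmbedding F (Sq p)
  exact this

/-- near a point of a torus the current is the integral over the torus -/
theorem cov_tor {D : Data} {S : ICur D} (T : Tor D S.supp) (q : Fin 4 → ℤ) (p : P2) {k : ℕ}
    (h : Mul S (tr q (T.i p)) k) : ∃ δ > 0, ∀ φ, CF φ → tsupport φ ⊆ ball (tr q (T.i p)) δ →
      S.T φ = k * ∫ r in Sq p, φ (tr q (T.i r)) (ds T.i r) (dt T.i r) := by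
  obtain ⟨x, u, ε, h1, h2⟩ := h
  have hz : (Complex.equivRealProd.symm p).re = p.1 ∧ (Complex.equivRealProd.symm p).im = p.2 :=
    ⟨rfl, rfl⟩
  set z₀ : ℂ := Complex.equivRealProd.symm p with hz₀
  have hp : (z₀.re, z₀.im) = p := rfl
  have hW0 : WW T q z₀ = tr q (T.i p) := rfl
  have hc : Continuous fun z : ℂ => (z.re, z.im) :=
    Complex.continuous_re.prodMk Complex.continuous_im
  have key := cov h1 (W := WW T q) (WW_contDiff T q) (fun z => supp_tr S q (T.mem _)) (WW_ne T q)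
    (WW_or T q) (z₀ := z₀) (A := {z : ℂ | (z.re, z.im) ∈ Sq p}) ((isOpen_Sq p).preimage hc)
    (show (z₀.re, z₀.im) ∈ Sq p from hp ▸ mem_Sq p) ?_ ?_ h2
  · obtain ⟨δ, hδ, h3⟩ := key
    refine ⟨δ, hδ, fun φ hφ hs => ?_⟩
    rw [h3 φ hφ hs, ← int_Sq]
    simp only [WW_one, WW_I]
    rfl
  · intro z hz z' hz' he
    have h3 : T.i (z.re, z.im) = tr 0 (T.i (z'.re, z'.im)) := by
      rw [tr_zero]; exact (trH q).injective he
    obtain ⟨h4, -⟩ := Tor.sq T le_rfl hz (Sq_sub p hz') h3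
    have e1 := congrArg Prod.fst h4
    have e2 := congrArg Prod.snd h4
    exact Complex.ext e1 e2
  · intro ρ hρ
    rw [hW0]
    refine Filter.mem_of_superset (nhds_tr S q (T.opn p (ρ / 2) (half_pos hρ))) ?_
    rintro _ ⟨_, ⟨r, hr, rfl⟩, rfl⟩
    refine ⟨Complex.equivRealProd.symm r, ?_, rfl⟩
    rw [mem_ball, Prod.dist_eq, max_lt_iff, Real.dist_eq, Real.dist_eq] at hr
    rw [mem_ball, dist_eq_norm]
    refine lt_of_le_of_lt (Complex.norm_le_abs_re_add_abs_im _) ?_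
    have e1 : (Complex.equivRealProd.symm r - z₀).re = r.1 - p.1 := rfl
    have e2 : (Complex.equivRealProd.symm r - z₀).im = r.2 - p.2 := rfl
    rw [e1, e2]
    linarith [hr.1, hr.2]

end Vale.Agent.P247.H663.Cls
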