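import Vale.Agent.P247.H663.Cls2
import Vale.Agent.P247.H350.Form

/-!
# P247, stage 2, package Z, `CLASS`, part 3: the multiplicity is constant along a torus
-/

open scoped ContDiff Topology
open Set MeasureTheory Filter Metric

noncomputable section

namespace Vale.Agent.P247.H663.Cls

open Vale.Agent.P247.H74 Vale.Agent.P247.H574 Vale.Agent.P247.H690.END

theorem cf2_val (a : CForm) (x u v : R4) : cf2 a x u v = a.val x u v := by
  simp [cf2, dd, CForm.val]
  ring

theorem cf2_continuous (a : CForm) : Continuous (cf2 a) := by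
  have h1 : Continuous (fderiv ℝ a.lam) := a.lam_smooth.continuous_fderiv (by simp)
  refine continuous_clm_apply.2 fun u => continuous_clm_apply.2 fun v => ?_
  have h2 : (fun x => cf2 a x u v) =
      fun x => a.κ u v + (fderiv ℝ a.lam x u) v - (fderiv ℝ a.lam x v) u := by
    funext x; rw [cf2_val]; rfl
  rw [h2]
  exact (continuous_const.add ((h1.clm_apply continuous_const).clm_apply continuous_const)).sub
    ((h1.clm_apply continuous_const).clm_apply continuous_const)

theorem zsm (a : F2) : (0 : ℝ) • a = 0 := by ext u v; simp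

theorem smz (c : ℝ) : c • (0 : F2) = 0 := by ext u v; simp

/-- the product of a function of compact support and a form -/
theorem CF_mk {f : R4 → ℝ} (hf : Continuous f) (hs : HasCompactSupport f) {a : R4 → F2}
    (ha : Continuous a) (h : ∀ x u, a x u u = 0) : CF fun x => f x • a x := by
  refine ⟨hf.smul ha, ?_, fun x u => ?_⟩
  · refine HasCompactSupport.intro hs fun x hx => ?_
    rw [image_eq_zero_of_notMem_tsupport hx, zsm]
  · have : (f x • a x) u u = f x * a x u u := rfl
    rw [this, h, mul_zero]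

/-- the product of a function and a test form -/
theorem CF_smul {f : R4 → ℝ} (hf : Continuous f) {φ : R4 → F2} (h : CF φ) :
    CF fun x => f x • φ x := by
  refine ⟨hf.smul h.cont, ?_, fun x u => ?_⟩
  · refine HasCompactSupport.intro h.supp fun x hx => ?_
    rw [image_eq_zero_of_notMem_tsupport hx, smz]
  · have : (f x • φ x) u u = f x * φ x u u := rfl
    rw [this, h.alt, mul_zero]

/-- the test form `f om` -/
theorem CF_om (a : CForm) {f : R4 → ℝ} (hf : Continuous f) (hs : HasCompactSupport f) :
    CF fun x => f x • cf2 a x :=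
  CF_mk hf hs (cf2_continuous a) fun x u => by rw [cf2_val, H350.val_self]

theorem om_pos {D : Data} {C : Set R4} (T : Tor D C) (q : Fin 4 → ℤ) (r : P2) :
    0 < cf2 D.om (tr q (T.i r)) (ds T.i r) (dt T.i r) := by
  obtain ⟨a, b, hb, h⟩ := T.hol r
  have h1 : D.J (tr q (T.i r)) = D.J (T.i r) := D.J_per q _
  rw [cf2_val, h, H350.val_add_right, H350.val_smul_right, H350.val_smul_right, H350.val_self,
    ← h1]
  have := D.tame (tr q (T.i r)) _ (T.ne r)
  rw [mul_zero, zero_add]
  exact mul_pos hb this

theorem continuous_ds {D : Data} {C : Set R4} (T : Tor D C) : Continuous (ds T.i) :=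
  H350.continuous_ds (T.smooth.of_le (by simp))

theorem continuous_dt {D : Data} {C : Set R4} (T : Tor D C) : Continuous (dt T.i) :=
  H350.continuous_dt (T.smooth.of_le (by simp))

/-- integrands are continuous -/
theorem continuous_int {D : Data} {C : Set R4} (T : Tor D C) (q : Fin 4 → ℤ) {φ : R4 → F2}
    (hφ : Continuous φ) : Continuous fun r => φ (tr q (T.i r)) (ds T.i r) (dt T.i r) := by
  have h1 : Continuous fun r => φ (tr q (T.i r)) :=
    hφ.comp ((tr_continuous q).comp T.smooth.continuous)
  exact (h1.clm_apply (continuous_ds T)).clm_apply (continuous_dt T)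

/-- the multiplicity is well defined -/
theorem Mul.unique {D : Data} {S : ICur D} (T : Tor D S.supp) (q : Fin 4 → ℤ) (p : P2) {k k' : ℕ}
    (h : Mul S (tr q (T.i p)) k) (h' : Mul S (tr q (T.i p)) k') : k = k' := by
  obtain ⟨δ, hδ, h1⟩ := cov_tor T q p h
  obtain ⟨δ', hδ', h2⟩ := cov_tor T q p h'
  set y := tr q (T.i p) with hy
  set δ₀ := min δ δ' / 2 with hδ₀
  have hδ₀p : 0 < δ₀ := half_pos (lt_min hδ hδ')
  set f : R4 → ℝ := fun x => max 0 (δ₀ - dist x y) with hf
  have hfc : Continuous f := by fun_prop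
  have hsup : ∀ x, x ∉ closedBall y δ₀ → f x = 0 := by
    intro x hx
    rw [mem_closedBall, not_le] at hx
    simp only [hf]
    exact max_eq_left (by linarith)
  have hfs : HasCompactSupport f :=
    HasCompactSupport.intro (isCompact_closedBall y δ₀) hsup
  set φ : R4 → F2 := fun x => f x • cf2 D.om x with hφ
  have hCF : CF φ := CF_om D.om hfc hfs
  have hts : tsupport φ ⊆ closedBall y δ₀ := by
    apply closure_minimal _ isClosed_closedBall
    intro x hx
    by_contra hc
    exact hx (by simp only [hφ]; rw [hsup x hc, zsm])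
  have e1 := h1 φ hCF (hts.trans (closedBall_subset_ball
    (lt_of_lt_of_le (half_lt_self (lt_min hδ hδ')) (min_le_left _ _))))
  have e2 := h2 φ hCF (hts.trans (closedBall_subset_ball
    (lt_of_lt_of_le (half_lt_self (lt_min hδ hδ')) (min_le_right _ _))))
  have hpos : 0 < ∫ r in Sq p, φ (tr q (T.i r)) (ds T.i r) (dt T.i r) := by
    have hval : ∀ r, φ (tr q (T.i r)) (ds T.i r) (dt T.i r) =
        f (tr q (T.i r)) * cf2 D.om (tr q (T.i r)) (ds T.i r) (dt T.i r) := fun r => rfl
    have hnn : ∀ r, 0 ≤ φ (tr q (T.i r)) (ds T.i r) (dt T.i r) := fun r => by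
      rw [hval]
      exact mul_nonneg (le_max_left _ _) (om_pos T q r).le
    rw [setIntegral_pos_iff_support_of_nonneg_ae]
    · have ho : IsOpen ((Function.support fun r => φ (tr q (T.i r)) (ds T.i r) (dt T.i r)) ∩ Sq p) :=
        (continuous_int T q hCF.cont).isOpen_support.inter (isOpen_Sq p)
      refine ho.measure_pos volume ⟨p, ?_, mem_Sq p⟩
      rw [Function.mem_support, hval]
      have : f (tr q (T.i p)) = δ₀ := by
        simp only [hf]
        rw [← hy, dist_self, sub_zero]
        exact max_eq_right hδ₀p.le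
      rw [this]
      exact (mul_pos hδ₀p (om_pos T q p)).ne'
    · exact Eventually.of_forall hnn
    · exact ((continuous_int T q hCF.cont).continuousOn.integrableOn_compact
        (isCompact_closedBall p (1 / 2))).mono_set (Sq_sub p)
  have e3 := e1.symm.trans e2
  have := mul_right_cancel₀ hpos.ne' e3
  exact_mod_cast this

/-- the multiplicity is constant along a torus -/
theorem Mul.const {D : Data} {S : ICur D}
    (hR : ∀ x ∈ S.supp, ∃ (u : ℂ → R4) (k : ℕ) (ε : ℝ), RegD S x u k ε) (T : Tor D S.supp) :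
    ∃ k : ℕ, 1 ≤ k ∧ ∀ p q, Mul S (tr q (T.i p)) k := by
  have hex : ∀ p, ∃ k, Mul S (T.i p) k := by
    intro p
    obtain ⟨u, k, ε, h⟩ := hR (T.i p) (T.mem p)
    exact ⟨k, _, u, ε, h, mem_ball_self h.pos⟩
  obtain ⟨k₀, h₀⟩ := hex 0
  have hopen : ∀ k, IsOpen {p | Mul S (T.i p) k} := by
    intro k
    rw [isOpen_iff_mem_nhds]
    rintro p ⟨x, u, ε, h1, h2⟩
    filter_upwards [T.smooth.continuous.continuousAt.preimage_mem_nhds (isOpen_ball.mem_nhds h2)]
      with r hr
    exact ⟨x, u, ε, h1, hr⟩
  have huniq : ∀ p k k', Mul S (T.i p) k → Mul S (T.i p) k' → k = k' := by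
    intro p k k' h h'
    have := Mul.unique T 0 p (k := k) (k' := k')
    rw [tr_zero] at this
    exact this h h'
  have hcl : IsClosed {p | Mul S (T.i p) k₀} := by
    rw [← isOpen_compl_iff]
    have : {p | Mul S (T.i p) k₀}ᶜ = ⋃ k ∈ {k | k ≠ k₀}, {p | Mul S (T.i p) k} := by
      ext p
      simp only [mem_compl_iff, mem_ofPred_eq, mem_iUnion]
      constructor
      · intro h
        obtain ⟨k, hk⟩ := hex p
        exact ⟨k, fun e => h (e ▸ hk), hk⟩
      · rintro ⟨k, hk, hk'⟩ h
        exact hk (huniq p _ _ hk' h)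
    rw [this]
    exact isOpen_biUnion fun k _ => hopen k
  have huniv := IsClopen.eq_univ ⟨hcl, hopen k₀⟩ ⟨0, h₀⟩
  have hall : ∀ p, Mul S (T.i p) k₀ := fun p => by
    have : p ∈ {p | Mul S (T.i p) k₀} := huniv ▸ mem_univ p
    exact this
  refine ⟨k₀, ?_, fun p q => Mul_tr (hall p) q⟩
  obtain ⟨x, u, ε, h, -⟩ := h₀
  exact h.one

end Vale.Agent.P247.H663.Cls
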