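import Vale.Agent.P247.H663.Cls2

/-!
# P247, stage 2, package Z, `CLASS`, part 4: the orbits of the tori
-/

open scoped ContDiff Topology Pointwise
open Set MeasureTheory Filter Metric

noncomputable section

namespace Vale.Agent.P247.H663.Cls

open Vale.Agent.P247.H74 Vale.Agent.P247.H574 Vale.Agent.P247.H690.END

section

variable {D : Data} {C : Set R4}

/-- the `ℤ⁴`-orbit of a torus -/
def Orb (T : Tor D C) : Set R4 := {x | ∃ (q : Fin 4 → ℤ) (p : P2), tr q (T.i p) = x}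

theorem Orb_mem (T : Tor D C) (q : Fin 4 → ℤ) (p : P2) : tr q (T.i p) ∈ Orb T := ⟨q, p, rfl⟩

theorem Orb_mem0 (T : Tor D C) (p : P2) : T.i p ∈ Orb T := ⟨0, p, tr_zero _⟩

theorem Orb_tr (T : Tor D C) (q : Fin 4 → ℤ) {x : R4} (h : x ∈ Orb T) : tr q x ∈ Orb T := by
  obtain ⟨k, p, rfl⟩ := h
  rw [tr_add]
  exact Orb_mem T _ p

theorem per_left (T : Tor D C) (a : ℤ) (p : P2) : T.i (p.1 + a, p.2) = tr (a • T.n 0) (T.i p) := by
  induction a using Int.induction_on with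
  | zero => simp [tr_zero]
  | succ n ih =>
    have h := T.per₁ (p.1 + (n : ℤ), p.2)
    simp only at h
    have e : p.1 + (((n : ℤ) + 1 : ℤ) : ℝ) = p.1 + ((n : ℤ) : ℝ) + 1 := by push_cast; ring
    rw [e, h, ih, tr_add, add_smul, one_smul, add_comm]
  | pred n ih =>
    have h := T.per₁ (p.1 + ((-(n : ℤ) - 1 : ℤ) : ℝ), p.2)
    simp only at h
    have e : p.1 + ((-(n : ℤ) - 1 : ℤ) : ℝ) + 1 = p.1 + ((-(n : ℤ) : ℤ) : ℝ) := by
      push_cast; ring
    rw [e, ih] at h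
    have h2 := congrArg (tr (-(T.n 0))) h
    rw [tr_neg_tr, tr_add] at h2
    rw [← h2]
    congr 1
    rw [sub_smul, one_smul]
    abel

theorem per_right (T : Tor D C) (b : ℤ) (p : P2) : T.i (p.1, p.2 + b) = tr (b • T.n 1) (T.i p) := by
  induction b using Int.induction_on with
  | zero => simp [tr_zero]
  | succ n ih =>
    have h := T.per₂ (p.1, p.2 + (n : ℤ))
    simp only at h
    have e : p.2 + (((n : ℤ) + 1 : ℤ) : ℝ) = p.2 + ((n : ℤ) : ℝ) + 1 := by push_cast; ring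
    rw [e, h, ih, tr_add, add_smul, one_smul, add_comm]
  | pred n ih =>
    have h := T.per₂ (p.1, p.2 + ((-(n : ℤ) - 1 : ℤ) : ℝ))
    simp only at h
    have e : p.2 + ((-(n : ℤ) - 1 : ℤ) : ℝ) + 1 = p.2 + ((-(n : ℤ) : ℤ) : ℝ) := by
      push_cast; ring
    rw [e, ih] at h
    have h2 := congrArg (tr (-(T.n 1))) h
    rw [tr_neg_tr, tr_add] at h2
    rw [← h2]
    congr 1
    rw [sub_smul, one_smul]
    abel

theorem per_both (T : Tor D C) (a b : ℤ) (p : P2) :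
    T.i (p.1 + a, p.2 + b) = tr (a • T.n 0 + b • T.n 1) (T.i p) := by
  have h1 := per_left T a (p.1, p.2 + b)
  simp only at h1
  rw [h1, per_right, tr_add]

theorem Orb_closed (T : Tor D C) : IsClosed (Orb T) := by
  have h1 : Orb T = (range fun q : Fin 4 → ℤ => ((fun i => (q i : ℝ)) : R4)) + T.i '' Icc (0 : P2) 1 := by
    ext x
    constructor
    · rintro ⟨q, p, rfl⟩
      have e : p = ((Int.fract p.1, Int.fract p.2).1 + (⌊p.1⌋ : ℤ),
          (Int.fract p.1, Int.fract p.2).2 + (⌊p.2⌋ : ℤ)) := by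
        ext
        · exact (Int.fract_add_floor p.1).symm
        · exact (Int.fract_add_floor p.2).symm
      rw [e, per_both, tr_add, tr_eq]
      refine ⟨_, ⟨_, rfl⟩, _, ⟨(Int.fract p.1, Int.fract p.2), ?_, rfl⟩, add_comm _ _⟩
      exact ⟨⟨Int.fract_nonneg _, Int.fract_nonneg _⟩, ⟨(Int.fract_lt_one _).le, (Int.fract_lt_one _).le⟩⟩
    · rintro ⟨_, ⟨q, rfl⟩, _, ⟨p, -, rfl⟩, rfl⟩
      refine ⟨q, p, ?_⟩
      rw [tr_eq]
      exact add_comm _ _
  have h2 : IsClosed (range fun q : Fin 4 → ℤ => ((fun i => (q i : ℝ)) : R4)) := by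
    have : (range fun q : Fin 4 → ℤ => ((fun i => (q i : ℝ)) : R4)) =
        Set.pi univ fun _ => range ((↑) : ℤ → ℝ) := by
      ext x
      simp only [mem_range, Set.mem_pi, mem_univ, forall_const]
      constructor
      · rintro ⟨q, rfl⟩ i
        exact ⟨q i, rfl⟩
      · intro h
        choose q hq using h
        exact ⟨q, funext hq⟩
    rw [this]
    exact isClosed_set_pi fun _ _ => Int.isClosedEmbedding_coe_real.isClosed_range
  rw [h1]
  exact h2.add_right_of_isCompact (isCompact_Icc.image T.smooth.continuous)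

end

section

variable {D : Data} {S : ICur D}

theorem Orb_sub (T : Tor D S.supp) : Orb T ⊆ S.supp := by
  rintro _ ⟨q, p, rfl⟩
  exact supp_tr S q (T.mem p)

theorem Orb_nhds (T : Tor D S.supp) {x : R4} (hx : x ∈ Orb T) : Orb T ∈ 𝓝[S.supp] x := by
  obtain ⟨q, p, rfl⟩ := hx
  refine Filter.mem_of_superset (nhds_tr S q (T.opn p 1 one_pos)) ?_
  rintro _ ⟨_, ⟨r, -, rfl⟩, rfl⟩
  exact Orb_mem T q r

theorem Orb_subset (T T' : Tor D S.supp) {x : R4} (hx : x ∈ Orb T) (hx' : x ∈ Orb T') :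
    Orb T' ⊆ Orb T := by
  have hcl : IsClosed {p | T'.i p ∈ Orb T} := (Orb_closed T).preimage T'.smooth.continuous
  have hop : IsOpen {p | T'.i p ∈ Orb T} := by
    rw [isOpen_iff_mem_nhds]
    intro p hp
    have h1 : Tendsto T'.i (𝓝 p) (𝓝[S.supp] (T'.i p)) :=
      tendsto_nhdsWithin_iff.2 ⟨T'.smooth.continuous.continuousAt,
        Eventually.of_forall fun r => T'.mem r⟩
    exact h1 (Orb_nhds T hp)
  obtain ⟨q, p, rfl⟩ := hx'
  have hne : {p | T'.i p ∈ Orb T}.Nonempty := by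
    refine ⟨p, ?_⟩
    have := Orb_tr T (-q) hx
    rw [tr_neg_tr] at this
    exact this
  have huniv := IsClopen.eq_univ ⟨hcl, hop⟩ hne
  rintro _ ⟨k, r, rfl⟩
  have : r ∈ {p | T'.i p ∈ Orb T} := huniv ▸ mem_univ r
  exact Orb_tr T k this

theorem Orb_eq (T T' : Tor D S.supp) {x : R4} (hx : x ∈ Orb T) (hx' : x ∈ Orb T') :
    Orb T = Orb T' :=
  Subset.antisymm (Orb_subset T' T hx' hx) (Orb_subset T T' hx hx')

/-- finitely many tori cover the support -/
theorem exists_reps (hT : ∀ x ∈ S.supp, ∃ T : Tor D S.supp, T.i 0 = x) :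
    ∃ (M : ℕ) (T : Fin M → Tor D S.supp), (∀ x ∈ S.supp, ∃ b, x ∈ Orb (T b)) ∧
      ∀ b b', b ≠ b' → Disjoint (Orb (T b)) (Orb (T b')) := by
  classical
  choose Tx hTx using hT
  have hK : IsCompact (S.supp ∩ Icc (0 : R4) 1) := isCompact_Icc.inter_left (isClosed_supp S)
  have hU : ∀ x (hx : x ∈ S.supp ∩ Icc (0 : R4) 1), Orb (Tx x hx.1) ∪ S.suppᶜ ∈ 𝓝 x := by
    intro x hx
    have h1 : x ∈ Orb (Tx x hx.1) := by
      have := Orb_mem0 (Tx x hx.1) 0
      rwa [hTx] at this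
    have h2 := Orb_nhds (Tx x hx.1) h1
    obtain ⟨ε, hε, h3⟩ := Metric.mem_nhdsWithin_iff.1 h2
    refine Metric.mem_nhds_iff.2 ⟨ε, hε, fun y hy => ?_⟩
    by_cases hys : y ∈ S.supp
    · exact Or.inl (h3 ⟨hy, hys⟩)
    · exact Or.inr hys
  obtain ⟨t, ht⟩ := hK.elim_nhds_subcover' (fun x hx => Orb (Tx x hx.1) ∪ S.suppᶜ) hU
  set F : Finset (Set R4) := t.image fun x => Orb (Tx x.1 x.2.1) with hF
  have hG : ∀ s : F, ∃ T : Tor D S.supp, Orb T = s.1 := by
    rintro ⟨s, hs⟩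
    obtain ⟨x, -, hx⟩ := Finset.mem_image.1 hs
    exact ⟨_, hx⟩
  choose G hGs using hG
  refine ⟨F.card, fun b => G (F.equivFin.symm b), ?_, ?_⟩
  · intro x hx
    have h1 : tr (fun i => -⌊x i⌋) x ∈ S.supp ∩ Icc (0 : R4) 1 := by
      refine ⟨supp_tr S _ hx, ?_, ?_⟩
      · intro i
        simp only [tr, Pi.zero_apply]
        push_cast
        linarith [Int.floor_le (x i)]
      · intro i
        simp only [tr, Pi.one_apply]
        push_cast
        linarith [Int.lt_floor_add_one (x i)]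
    obtain ⟨y, hyt, hy⟩ := mem_iUnion₂.1 (ht h1)
    have h2 : tr (fun i => -⌊x i⌋) x ∈ Orb (Tx y.1 y.2.1) := hy.resolve_right fun h => h h1.1
    have hs : Orb (Tx y.1 y.2.1) ∈ F := Finset.mem_image.2 ⟨y, hyt, rfl⟩
    refine ⟨F.equivFin ⟨_, hs⟩, ?_⟩
    have h3 := Orb_tr (Tx y.1 y.2.1) (-fun i => -⌊x i⌋) h2
    rw [tr_neg_tr] at h3
    have h4 : Orb (G (F.equivFin.symm (F.equivFin ⟨_, hs⟩))) = Orb (Tx y.1 y.2.1) := by
      rw [Equiv.symm_apply_apply]
      exact hGs _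
    show x ∈ Orb (G (F.equivFin.symm (F.equivFin ⟨_, hs⟩)))
    rw [h4]
    exact h3
  · intro b b' hb
    rw [Set.disjoint_left]
    intro x hx hx'
    have h1 := Orb_eq _ _ hx hx'
    rw [hGs, hGs] at h1
    exact hb (F.equivFin.symm.injective (Subtype.ext h1))

end

end Vale.Agent.P247.H663.Cls
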