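import Vale.Agent.P247.H663.S

/-!
# P247, package S: two tori which coincide somewhere are equal
-/

open scoped ContDiff Topology
open Set MeasureTheory Filter Metric

noncomputable section

namespace Vale.Agent.P247.H663

open Vale.Agent.P247.H74

/-! ## The mean of a periodic function is invariant under translations -/

theorem mean_eq_iterated {g : P2 → ℝ} (hg : Continuous g) :
    mean g = ∫ s in (0 : ℝ)..1, ∫ t in (0 : ℝ)..1, g (s, t) := by
  unfold mean
  have h1 : (Icc (0 : P2) 1) = Icc (0 : ℝ) 1 ×ˢ Icc (0 : ℝ) 1 := by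
    rw [Icc_prod_Icc]
    rfl
  have hint : IntegrableOn g (Icc (0 : ℝ) 1 ×ˢ Icc (0 : ℝ) 1) (volume.prod volume) := by
    refine ContinuousOn.integrableOn_compact ?_ hg.continuousOn
    exact isCompact_Icc.prod isCompact_Icc
  rw [h1, Measure.volume_eq_prod, setIntegral_prod _ hint]
  rw [intervalIntegral.integral_of_le zero_le_one, ← integral_Icc_eq_integral_Ioc]
  refine integral_congr_ae (Eventually.of_forall fun s => ?_)
  show ∫ t in Icc (0 : ℝ) 1, g (s, t) = ∫ t in (0 : ℝ)..1, g (s, t)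
  rw [intervalIntegral.integral_of_le zero_le_one, ← integral_Icc_eq_integral_Ioc]

theorem mean_translate {g : P2 → ℝ} (hg : Continuous g) (hp : Per g) (b : P2) :
    mean (fun p => g (p + b)) = mean g := by
  rw [mean_eq_iterated hg, mean_eq_iterated (g := fun p => g (p + b)) (hg.comp (by fun_prop))]
  have h1 : ∀ s : ℝ, ∫ t in (0 : ℝ)..1, g ((s, t) + b) = ∫ t in (0 : ℝ)..1, g (s + b.1, t) := by
    intro s
    have hper : Function.Periodic (fun t => g (s + b.1, t)) 1 := fun t => by
      have := hp 0 1 (s + b.1, t)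
      simpa using this
    have h2 := intervalIntegral.integral_comp_add_right (a := 0) (b := 1)
      (fun t => g (s + b.1, t)) b.2
    have h3 := hper.intervalIntegral_add_eq b.2 0
    rw [zero_add] at h3
    calc ∫ t in (0 : ℝ)..1, g ((s, t) + b) = ∫ t in (0 : ℝ)..1, g (s + b.1, t + b.2) := rfl
      _ = ∫ t in (0 + b.2)..(1 + b.2), g (s + b.1, t) := h2
      _ = ∫ t in b.2..(b.2 + 1), g (s + b.1, t) := by rw [zero_add, add_comm 1 b.2]
      _ = _ := h3
  simp only [h1]
  have hper : Function.Periodic (fun s => ∫ t in (0 : ℝ)..1, g (s, t)) 1 := fun s => by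
    show ∫ t in (0 : ℝ)..1, g (s + 1, t) = _
    refine intervalIntegral.integral_congr fun t _ => ?_
    have := hp 1 0 (s, t)
    simpa using this
  have h2 := intervalIntegral.integral_comp_add_right (a := 0) (b := 1)
    (fun s => ∫ t in (0 : ℝ)..1, g (s, t)) b.1
  have h3 := hper.intervalIntegral_add_eq b.1 0
  rw [zero_add] at h3
  rw [h2, zero_add, add_comm 1 b.1]
  exact h3

/-! ## `up` -/

theorem coordL_ex (τ : ℂ) : ∃ L : ℂ →L[ℝ] P2, ∀ z, L z = coord τ z := by
  refine ⟨(Complex.reCLM - (τ.re / τ.im) • Complex.imCLM).prod ((1 / τ.im) • Complex.imCLM),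
    fun z => ?_⟩
  unfold coord
  ext
  · simp
    ring
  · simp
    ring

theorem contDiff_lin : ContDiff ℝ ∞ lin := by
  unfold lin
  refine contDiff_pi.2 fun i => ?_
  fin_cases i <;> simp <;> fun_prop

theorem contDiff_phi {f : P2 → R4} (hf : ContDiff ℝ ∞ f) : ContDiff ℝ ∞ (phi f) :=
  contDiff_lin.add hf

theorem fderiv_up {f : P2 → R4} (hf : ContDiff ℝ ∞ f) (τ z w : ℂ) :
    fderiv ℝ (up f τ) z w = fderiv ℝ (phi f) (coord τ z) (coord τ w) := by
  obtain ⟨L, hL⟩ := coordL_ex τ
  have h1 : up f τ = fun z => phi f (L z) := by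
    funext z
    rw [hL]
    rfl
  have h2 : HasFDerivAt (up f τ) ((fderiv ℝ (phi f) (L z)).comp L) z := by
    rw [h1]
    exact ((contDiff_phi hf).differentiable (by simp) (L z)).hasFDerivAt.comp z L.hasFDerivAt
  rw [h2.fderiv]
  show fderiv ℝ (phi f) (L z) (L w) = _
  rw [hL, hL]

theorem coord_one (τ : ℂ) : coord τ 1 = (1, 0) := by
  simp [coord]

theorem fderiv_up_one {f : P2 → R4} (hf : ContDiff ℝ ∞ f) (τ z : ℂ) :
    fderiv ℝ (up f τ) z 1 = ds (phi f) (coord τ z) := by
  rw [fderiv_up hf, coord_one]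
  rfl

theorem contDiff_up {f : P2 → R4} (hf : ContDiff ℝ ∞ f) (τ : ℂ) : ContDiff ℝ ∞ (up f τ) := by
  obtain ⟨L, hL⟩ := coordL_ex τ
  have h1 : up f τ = fun z => phi f (L z) := by
    funext z
    rw [hL]
    rfl
  rw [h1]
  exact (contDiff_phi hf).comp L.contDiff

theorem JH_up {D : Data} {f : P2 → R4} {τ : ℂ} (h : JT D f τ) : JH D (up f τ) := by
  have hτ := h.im_pos
  refine ⟨contDiff_up h.smooth τ, fun z => ?_⟩
  rw [fderiv_up_one h.smooth, fderiv_up h.smooth]
  have h1 : coord τ Complex.I = (1 / τ.im) • (((0 : ℝ), (1 : ℝ)) - τ.re • ((1 : ℝ), (0 : ℝ))) := by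
    unfold coord
    ext
    · simp
      field_simp
    · simp
  rw [h1, map_smul, map_sub, map_smul]
  have h2 := h.eq (coord τ z)
  unfold dt at h2
  rw [h2]
  show (1 / τ.im) • (τ.re • ds (phi f) (coord τ z) + _ - τ.re • ds (phi f) (coord τ z)) = _
  rw [add_sub_cancel_left, smul_smul, one_div_mul_cancel hτ.ne', one_smul]
  rfl

theorem lift_up {f : P2 → R4} (hf : Per f) {τ : ℂ} (hτ : 0 < τ.im) : Lift τ (up f τ) := by
  intro m n z
  unfold up phi
  rw [add_assoc z, coord_add, coord_lat τ hτ, lin_add, lin_int]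
  have h1 : f (coord τ z + ((m : ℝ), (n : ℝ))) = f (coord τ z) := hf m n (coord τ z)
  rw [h1]
  abel

/-! ## L2 -/

/-- a coordinate change with equal images is a translation -/
theorem entire_translation {τ τ' : ℂ} (hτ : 0 < τ.im) {ζ : ℂ → ℂ}
    (hd : Differentiable ℂ ζ) (h1 : ∀ z, ζ (z + 1) = ζ z + 1) (h2 : ∀ z, ζ (z + τ) = ζ z + τ') :
    τ = τ' ∧ ∀ z, ζ z = z + ζ 0 := by
  have hdd : Differentiable ℂ (deriv ζ) := hd.contDiff.differentiable_deriv_two
  have hp1 : ∀ z, deriv ζ (z + 1) = deriv ζ z := fun z => by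
    rw [← deriv_comp_add_const ζ 1 z]
    simp only [h1]
    rw [deriv_add_const]
  have hp2 : ∀ z, deriv ζ (z + τ) = deriv ζ z := fun z => by
    rw [← deriv_comp_add_const ζ τ z]
    simp only [h2]
    rw [deriv_add_const]
  have hq1 : Function.Periodic (deriv ζ) 1 := hp1
  have hq2 : Function.Periodic (deriv ζ) τ := hp2
  obtain ⟨C, hC⟩ := (isCompact_fd τ).exists_bound_of_continuousOn hdd.continuous.continuousOn
  have hb : ∀ z, ‖deriv ζ z‖ ≤ C := fun z => by
    obtain ⟨m, n, hmn⟩ := exists_fd τ hτ z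
    have h3 := hC _ hmn
    have e1 : deriv ζ (z + m + n * τ) = deriv ζ (z + m) := (hq2.int_mul n) (z + m)
    have e2 : deriv ζ (z + m) = deriv ζ z := by
      have := (hq1.int_mul m) z
      rwa [mul_one] at this
    rwa [e1, e2] at h3
  have hbd : Bornology.IsBounded (range (deriv ζ)) := by
    rw [isBounded_iff_forall_norm_le]
    exact ⟨C, by rintro _ ⟨z, rfl⟩; exact hb z⟩
  have hconst : ∀ z, deriv ζ z = deriv ζ 0 := fun z => hdd.apply_eq_apply_of_bounded hbd z 0
  have hlin : ∀ z, ζ z = deriv ζ 0 * z + ζ 0 := by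
    intro z
    have h3 : ∀ z, HasDerivAt (fun w => ζ w - deriv ζ 0 * w) 0 z := fun z => by
      have := (hd z).hasDerivAt.sub ((hasDerivAt_id z).const_mul (deriv ζ 0))
      rw [hconst z, mul_one, sub_self] at this
      exact this
    have h4 := is_const_of_deriv_eq_zero (fun z => (h3 z).differentiableAt)
      (fun z => (h3 z).deriv) z 0
    have h5 : ζ z - deriv ζ 0 * z = ζ 0 - deriv ζ 0 * 0 := h4
    linear_combination h5
  have ha : deriv ζ 0 = 1 := by
    have h3 := h1 0
    rw [hlin (0 + 1)] at h3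
    linear_combination h3
  refine ⟨?_, fun z => by rw [hlin z, ha, one_mul]⟩
  have h3 := h2 0
  rw [hlin (0 + τ), ha] at h3
  linear_combination h3

theorem L2 (hL1 : L1_statement) : L2_statement := by
  intro D f f' τ τ' hf hf' hc hc' himm hinj hloc
  obtain ⟨z₀, w₀, hzw⟩ := hloc
  have hτ := hf.im_pos
  have hτ' := hf'.im_pos
  set u := up f τ with hu
  set v := up f' τ' with hv
  have hJu : JH D u := JH_up hf
  have hJv : JH D v := JH_up hf'
  have hLu : Lift τ u := lift_up hf.per hτ
  have hLv : Lift τ' v := lift_up hf'.per hτ'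
  have hvi : Function.Injective v := fun z w h => by
    have h1 : coord τ' z = coord τ' w := hinj h
    have h2 := congrArg (inv τ') h1
    rwa [inv_coord τ' hτ', inv_coord τ' hτ'] at h2
  have hvimm : ∀ w, fderiv ℝ v w 1 ≠ 0 := fun w => by
    rw [hv, fderiv_up_one hf'.smooth]
    exact himm _
  have hcu : Continuous u := hJu.1.continuous
  have hcv : Continuous v := hJv.1.continuous
  -- the set of points where `u` runs in `v`
  let E : Set ℂ := {z | ∃ w, LocIn u v z w}
  have hEo : IsOpen E := by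
    rw [isOpen_iff_mem_nhds]
    rintro z ⟨w, hw⟩
    obtain ⟨ε, hε, ζ, -, -, h4⟩ := LocIn.near hw
    exact mem_of_superset (ball_mem_nhds z hε) fun y hy => ⟨ζ y, (h4 y hy).2⟩
  have hEc : IsClosed E := by
    rw [← isSeqClosed_iff_isClosed]
    intro zn z hzn hlim
    choose wn hwn using hzn
    have huv : ∀ n, u (zn n) = v (wn n) := fun n => by
      obtain ⟨ε, hε, ζ, -, h0, h1⟩ := hwn n
      rw [h1 _ (mem_ball_self hε), h0]
    obtain ⟨C, hC0, hC⟩ := lift_close hτ hτ' hcu hcv hLu hLv
    have hbd : ∃ B, ∀ n, ‖wn n‖ ≤ B := by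
      have h1 : Bornology.IsBounded (range fun n => lin (coord τ (zn n))) :=
        Metric.isBounded_range_of_tendsto _
          ((continuous_lin.comp (continuous_coord τ)).tendsto z |>.comp hlim)
      obtain ⟨B, hB⟩ := isBounded_iff_forall_norm_le.1 h1
      refine ⟨(1 + ‖τ'‖) * (B + C), fun n => ?_⟩
      have h2 := hB _ ⟨n, rfl⟩
      have h3 := hC _ _ (huv n)
      have h4 : ‖lin (coord τ' (wn n))‖ ≤ B + C := by
        have : lin (coord τ' (wn n)) = lin (coord τ (zn n)) -
            (lin (coord τ (zn n)) - lin (coord τ' (wn n))) := by abel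
        rw [this]
        exact (norm_sub_le _ _).trans (add_le_add h2 h3)
      calc ‖wn n‖ = ‖inv τ' (coord τ' (wn n))‖ := by rw [inv_coord τ' hτ']
        _ ≤ (1 + ‖τ'‖) * ‖lin (coord τ' (wn n))‖ := norm_le_lin _ _
        _ ≤ _ := by gcongr
    obtain ⟨B, hB⟩ := hbd
    obtain ⟨w, -, φ, hφ, hw⟩ := tendsto_subseq_of_bounded
      (isBounded_iff_forall_norm_le.2 ⟨B, by rintro _ ⟨n, rfl⟩; exact hB n⟩ :
        Bornology.IsBounded (range wn)) (fun n => mem_range_self n)
    have hz' : Tendsto (fun n => zn (φ n)) atTop (𝓝 z) := hlim.comp hφ.tendsto_atTop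
    have hzw' : u z = v w := by
      refine tendsto_nhds_unique ((hcu.tendsto z).comp hz') ?_
      have : (u ∘ fun n => zn (φ n)) = fun n => v (wn (φ n)) := by
        funext n
        exact huv (φ n)
      rw [this]
      exact (hcv.tendsto w).comp hw
    rcases hL1 D u v z w hJu hJv hzw' (hvimm w) with h | ⟨⟨ε, hε, hiso⟩, -⟩
    · exact ⟨w, h⟩
    · have e1 : ∀ᶠ n in atTop, zn (φ n) ∈ ball z ε := hz' (ball_mem_nhds _ hε)
      have e2 : ∀ᶠ n in atTop, (wn ∘ φ) n ∈ ball w ε := hw (ball_mem_nhds _ hε)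
      obtain ⟨n, h1, h2⟩ := (e1.and e2).exists
      obtain ⟨h3, -⟩ := hiso _ h1 _ h2 (huv (φ n))
      exact ⟨wn (φ n), h3 ▸ hwn (φ n)⟩
  have hEu : E = univ := IsClopen.eq_univ ⟨hEc, hEo⟩ ⟨z₀, w₀, hzw⟩
  have hall : ∀ z, ∃ w, LocIn u v z w := fun z => by
    have : z ∈ E := hEu ▸ mem_univ z
    exact this
  choose ζ hζ using hall
  have hval : ∀ z, u z = v (ζ z) := fun z => by
    obtain ⟨ε, hε, ξ, -, h0, h1⟩ := hζ z
    rw [h1 _ (mem_ball_self hε), h0]
  have hdiff : Differentiable ℂ ζ := by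
    intro z
    obtain ⟨ε, hε, ξ, hξ, -, h1⟩ := hζ z
    have h2 : ζ =ᶠ[𝓝 z] ξ := by
      filter_upwards [ball_mem_nhds z hε] with y hy
      exact hvi ((hval y).symm.trans (h1 y hy))
    exact (hξ.differentiableAt (ball_mem_nhds z hε)).congr_of_eventuallyEq h2
  have hp1 : ∀ z, ζ (z + 1) = ζ z + 1 := fun z => hvi (by
    have h1 := hLu 1 0 z
    have h2 := hLv 1 0 (ζ z)
    simp only [Int.cast_one, Int.cast_zero, zero_mul, add_zero] at h1 h2
    rw [← hval, h1, h2, hval z])
  have hp2 : ∀ z, ζ (z + τ) = ζ z + τ' := fun z => hvi (by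
    have h1 := hLu 0 1 z
    have h2 := hLv 0 1 (ζ z)
    simp only [Int.cast_one, Int.cast_zero, one_mul, add_zero] at h1 h2
    rw [← hval, h1, h2, hval z])
  obtain ⟨hττ, htr⟩ := entire_translation hτ hdiff hp1 hp2
  set b : P2 := coord τ (ζ 0) with hb
  have hfb : ∀ p, f p = lin b + f' (p + b) := by
    intro p
    have h1 := hval (inv τ p)
    rw [htr (inv τ p), hu, hv] at h1
    unfold up phi at h1
    rw [← hττ, coord_add, coord_inv τ hτ, lin_add] at h1
    have h2 : lin p + f p = lin p + (lin b + f' (p + b)) := by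
      rw [h1]; abel
    exact add_left_cancel h2
  have hcomp : ∀ i : Fin 4, mean (fun p => f p i) = lin b i + mean (fun p => f' p i) := by
    intro i
    have hcf : Continuous fun p => f' p i :=
      (continuous_apply i).comp hf'.smooth.continuous
    have hpf : Per (fun p => f' p i) := fun m n p => by
      show f' _ i = _
      rw [hf'.per m n p]
    have h1 := mean_translate hcf hpf b
    have h2 : (fun p => f p i) = fun p => lin b i + f' (p + b) i := by
      funext p
      rw [hfb p]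
      rfl
    rw [h2, ← h1]
    unfold mean
    rw [integral_add]
    · congr 1
      rw [setIntegral_const]
      have : (volume : Measure P2).real (Icc (0 : P2) 1) = 1 := by
        have h3 : (Icc (0 : P2) 1) = Icc (0 : ℝ) 1 ×ˢ Icc (0 : ℝ) 1 := by
          rw [Icc_prod_Icc]
          rfl
        rw [h3, Measure.volume_eq_prod, measureReal_def, Measure.prod_prod, Real.volume_Icc]
        simp
      rw [this, one_smul]
    · exact (continuous_const.integrableOn_Icc)
    · exact (hcf.comp (by fun_prop : Continuous fun p : P2 => p + b)).integrableOn_Icc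
  have hb1 : b.1 = 0 := by
    have h1 := hcomp 2
    rw [hc.1, hc'.1] at h1
    simpa [lin] using h1.symm
  have hb2 : b.2 = 0 := by
    have h1 := hcomp 3
    rw [hc.2, hc'.2] at h1
    simpa [lin] using h1.symm
  have hb0 : b = 0 := Prod.ext hb1 hb2
  refine ⟨?_, hττ⟩
  funext p
  rw [hfb p, hb0, add_zero]
  have : lin 0 = 0 := by
    have := lin_sub 0 0
    simpa using this
  rw [this, zero_add]

end Vale.Agent.P247.H663
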