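import Vale.Agent.P247.H663.Cls3
import Vale.Agent.P247.H663.Cls4
import Vale.Agent.P247.H663.L2

/-!
# P247, stage 2, package Z, `CLASS`, part 5: integration over the orbit of a torus
-/

open scoped ContDiff Topology
open Set MeasureTheory Filter Metric

noncomputable section

namespace Vale.Agent.P247.H663.Cls

open Vale.Agent.P247.H74 Vale.Agent.P247.H574 Vale.Agent.P247.H690.END

section

variable {D : Data} {C : Set R4}

/-- the sum over the lattice -/
def gg (T : Tor D C) (φ : R4 → F2) (p : P2) : ℝ :=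
  ∑ᶠ q : Fin 4 → ℤ, φ (tr q (T.i p)) (ds T.i p) (dt T.i p)

/-- integration over the orbit of the torus -/
def RR (T : Tor D C) (φ : R4 → F2) : ℝ := mean (gg T φ)

theorem gg_lf (T : Tor D C) {φ : R4 → F2} (hφ : HasCompactSupport φ) :
    LocallyFinite fun q : Fin 4 → ℤ =>
      Function.support fun p => φ (tr q (T.i p)) (ds T.i p) (dt T.i p) := by
  intro p
  refine ⟨ball p 1, ball_mem_nhds p one_pos, ?_⟩
  obtain ⟨R1, h1⟩ : ∃ R, ∀ r ∈ closedBall p 1, ‖T.i r‖ ≤ R :=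
    (isCompact_closedBall p 1).exists_bound_of_continuousOn T.smooth.continuous.continuousOn
  obtain ⟨R2, h2⟩ : ∃ R, ∀ x ∈ tsupport φ, ‖x‖ ≤ R := hφ.isCompact.isBounded.exists_norm_le
  refine (Set.finite_Icc (fun _ : Fin 4 => -⌈R1 + R2⌉) (fun _ => ⌈R1 + R2⌉)).subset ?_
  rintro q ⟨r, hr, hrb⟩
  have h3 : φ (tr q (T.i r)) ≠ 0 := fun h0 => hr (by simp only [h0]; rfl)
  have h4 := h2 _ (subset_tsupport _ h3)
  have h5 := h1 r (ball_subset_closedBall hrb)
  have h6 : ∀ i, |(q i : ℝ)| ≤ R1 + R2 := by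
    intro i
    have e : (q i : ℝ) = tr q (T.i r) i - T.i r i := by simp [tr]
    rw [e]
    calc |tr q (T.i r) i - T.i r i| ≤ |tr q (T.i r) i| + |T.i r i| := abs_sub _ _
      _ ≤ ‖tr q (T.i r)‖ + ‖T.i r‖ := add_le_add (norm_le_pi_norm (tr q (T.i r)) i)
          (norm_le_pi_norm (T.i r) i)
      _ ≤ R1 + R2 := by linarith
  constructor
  · intro i
    have h7 := (abs_le.1 (h6 i)).1
    have h8 := Int.le_ceil (R1 + R2)
    have : ((-⌈R1 + R2⌉ : ℤ) : ℝ) ≤ q i := by push_cast; linarith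
    exact_mod_cast this
  · intro i
    have h7 := (abs_le.1 (h6 i)).2
    have h8 := Int.le_ceil (R1 + R2)
    have : (q i : ℝ) ≤ (⌈R1 + R2⌉ : ℤ) := by linarith
    exact_mod_cast this

theorem gg_fin (T : Tor D C) {φ : R4 → F2} (hφ : HasCompactSupport φ) (p : P2) :
    (Function.support fun q : Fin 4 → ℤ => φ (tr q (T.i p)) (ds T.i p) (dt T.i p)).Finite :=
  (gg_lf T hφ).point_finite p

theorem gg_cont (T : Tor D C) {φ : R4 → F2} (hφ : CF φ) : Continuous (gg T φ) :=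
  continuous_finsum (fun q => continuous_int T q hφ.cont) (gg_lf T hφ.supp)

theorem fderiv_per (T : Tor D C) (m n : ℤ) (p : P2) :
    fderiv ℝ T.i (p.1 + m, p.2 + n) = fderiv ℝ T.i p := by
  have h1 := fderiv_comp_add_right (𝕜 := ℝ) (f := T.i) (x := p) ((m : ℝ), (n : ℝ))
  have h2 : (fun x : P2 => T.i (x + ((m : ℝ), (n : ℝ)))) =
      fun x => T.i x + fun i => ((m • T.n 0 + n • T.n 1) i : ℝ) := by
    funext x
    rw [← tr_eq, ← per_both]
    rfl
  rw [h2, fderiv_add_const] at h1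
  exact h1.symm

theorem gg_per (T : Tor D C) (φ : R4 → F2) : Per (gg T φ) := by
  intro m n p
  unfold gg ds dt
  rw [fderiv_per, per_both]
  simp only [tr_add]
  exact finsum_comp_equiv (Equiv.addRight (m • T.n 0 + n • T.n 1))
    (f := fun q => φ (tr q (T.i p)) (fderiv ℝ T.i p (1, 0)) (fderiv ℝ T.i p (0, 1)))

theorem gg_add (T : Tor D C) {φ ψ : R4 → F2} (hφ : CF φ) (hψ : CF ψ) (p : P2) :
    gg T (φ + ψ) p = gg T φ p + gg T ψ p := by
  unfold gg
  rw [← finsum_add_distrib (gg_fin T hφ.supp p) (gg_fin T hψ.supp p)]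
  rfl

theorem RR_add (T : Tor D C) {φ ψ : R4 → F2} (hφ : CF φ) (hψ : CF ψ) :
    RR T (φ + ψ) = RR T φ + RR T ψ := by
  unfold RR
  rw [← H350.mean_add (gg_cont T hφ) (gg_cont T hψ)]
  congr 1
  funext p
  exact gg_add T hφ hψ p

/-- the mean as an integral over any unit square -/
theorem mean_Sq {g : P2 → ℝ} (hg : Continuous g) (hp : Per g) (p : P2) :
    mean g = ∫ r in Sq p, g r := by
  set c : P2 := (p.1 - 1 / 2, p.2 - 1 / 2) with hc
  rw [← mean_translate hg hp c]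
  unfold mean
  have h1 : (fun x : P2 => x + c) ⁻¹' (Icc c (c + 1)) = Icc 0 1 := by
    ext x
    simp only [mem_preimage, mem_Icc]
    constructor
    · rintro ⟨h1, h2⟩
      exact ⟨by simpa using h1, by rwa [add_comm c, add_le_add_iff_right] at h2⟩
    · rintro ⟨h1, h2⟩
      exact ⟨by simpa using h1, by rwa [add_comm c, add_le_add_iff_right]⟩
  have h2 := (measurePreserving_add_right (volume : Measure P2) c).setIntegral_preimage_emb
    (measurableEmbedding_addRight c) g (Icc c (c + 1))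
  rw [h1] at h2
  rw [h2]
  apply setIntegral_congr_set
  have h3 : Icc c (c + 1) = Icc (p.1 - 1 / 2) (p.1 + 1 / 2) ×ˢ Icc (p.2 - 1 / 2) (p.2 + 1 / 2) := by
    rw [Icc_prod_Icc]
    congr 1
    ext <;> simp [hc] <;> ring
  have h4 : Sq p = Ioo (p.1 - 1 / 2) (p.1 + 1 / 2) ×ˢ Ioo (p.2 - 1 / 2) (p.2 + 1 / 2) := by
    ext r
    simp only [Sq, mem_ofPred_eq, mem_prod, mem_Ioo, abs_lt]
    constructor
    · rintro ⟨⟨h1, h2⟩, h3, h4⟩
      exact ⟨⟨by linarith, by linarith⟩, by linarith, by linarith⟩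
    · rintro ⟨⟨h1, h2⟩, h3, h4⟩
      exact ⟨⟨by linarith, by linarith⟩, by linarith, by linarith⟩
  rw [h3, h4, Measure.volume_eq_prod]
  exact (Measure.set_prod_ae_eq Ioo_ae_eq_Icc Ioo_ae_eq_Icc).symm

end

section

variable {D : Data} {S : ICur D}

theorem gg_zero {C : Set R4} (T : Tor D C) {φ : R4 → F2} (p : P2)
    (h : ∀ q : Fin 4 → ℤ, φ (tr q (T.i p)) = 0) : gg T φ p = 0 := by
  unfold gg
  have : ∀ q : Fin 4 → ℤ, φ (tr q (T.i p)) (ds T.i p) (dt T.i p) = 0 := fun q => by rw [h q]; rfl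
  simp only [this]
  exact finsum_zero

/-- off the orbit -/
theorem RR_off {C : Set R4} (T : Tor D C) {y : R4} (hy : y ∉ Orb T) :
    ∃ δ > 0, ∀ φ : R4 → F2, tsupport φ ⊆ ball y δ → RR T φ = 0 := by
  obtain ⟨δ, hδ, h⟩ := Metric.isOpen_iff.1 (Orb_closed T).isOpen_compl y hy
  refine ⟨δ, hδ, fun φ hs => ?_⟩
  have : gg T φ = fun _ => 0 := by
    funext p
    apply gg_zero
    intro q
    by_contra hc
    exact h (hs (subset_tsupport _ hc)) (Orb_mem T q p)
  unfold RR mean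
  rw [this]
  simp

/-- on the orbit -/
theorem RR_on (T : Tor D S.supp) (q₀ : Fin 4 → ℤ) (p₀ : P2) :
    ∃ δ > 0, ∀ φ, CF φ → tsupport φ ⊆ ball (tr q₀ (T.i p₀)) δ →
      RR T φ = ∫ r in Sq p₀, φ (tr q₀ (T.i r)) (ds T.i r) (dt T.i r) := by
  obtain ⟨δ, hδ, h⟩ := Metric.mem_nhdsWithin_iff.1 (nhds_tr S q₀ (T.opn p₀ (1 / 2) (by norm_num)))
  refine ⟨δ, hδ, fun φ hφ hs => ?_⟩
  unfold RR
  rw [mean_Sq (gg_cont T hφ) (gg_per T φ) p₀]
  apply setIntegral_congr_fun (isOpen_Sq p₀).measurableSet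
  intro r hr
  unfold gg
  refine finsum_eq_single _ q₀ fun q hq => ?_
  have : φ (tr q (T.i r)) = 0 := by
    by_contra hc
    obtain ⟨_, ⟨r', hr', rfl⟩, he⟩ := h ⟨hs (subset_tsupport _ hc), supp_tr S q (T.mem r)⟩
    have h1 : T.i r = tr (q₀ - q) (T.i r') := by
      have := congrArg (tr (-q)) he
      rw [tr_neg_tr, tr_add] at this
      rw [← this]
      congr 1
      abel
    obtain ⟨-, h2⟩ := Tor.sq T le_rfl hr (ball_subset_closedBall hr') h1
    exact hq (sub_eq_zero.1 h2).symm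
  rw [this]; rfl

end

end Vale.Agent.P247.H663.Cls
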