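import Vale.Agent.P247.H663.Cls5

/-!
# P247, stage 2, package Z, `CLASS`, part 6: the current is a sum of tori
-/

open scoped ContDiff Topology
open Set MeasureTheory Filter Metric

noncomputable section

namespace Vale.Agent.P247.H663.Cls

open Vale.Agent.P247.H74 Vale.Agent.P247.H574 Vale.Agent.P247.H690.END

theorem CF_zero : CF (0 : R4 → F2) :=
  ⟨continuous_const, HasCompactSupport.zero, fun _ _ => rfl⟩

theorem CF_add {φ ψ : R4 → F2} (hφ : CF φ) (hψ : CF ψ) : CF (φ + ψ) := by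
  refine ⟨?_, ?_, fun x u => ?_⟩
  · refine continuous_clm_apply.2 fun u => continuous_clm_apply.2 fun v => ?_
    have h1 := (hφ.cont.clm_apply (continuous_const (y := u))).clm_apply (continuous_const (y := v))
    have h2 := (hψ.cont.clm_apply (continuous_const (y := u))).clm_apply (continuous_const (y := v))
    exact h1.add h2
  · refine HasCompactSupport.intro (hφ.supp.isCompact.union hψ.supp.isCompact) fun x hx => ?_
    have h1 : φ x = 0 := image_eq_zero_of_notMem_tsupport fun h => hx (Or.inl h)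
    have h2 : ψ x = 0 := image_eq_zero_of_notMem_tsupport fun h => hx (Or.inr h)
    show φ x + ψ x = 0
    rw [h1, h2]
    ext u v; simp
  · have : (φ + ψ) x u u = φ x u u + ψ x u u := rfl
    rw [this, hφ.alt, hψ.alt, add_zero]

theorem CF_sum {ι : Type*} (s : Finset ι) (φ : ι → R4 → F2) (h : ∀ i, CF (φ i)) :
    CF (∑ i ∈ s, φ i) := by
  classical
  induction s using Finset.induction_on with
  | empty => simpa using CF_zero
  | insert i s hi ih =>
    rw [Finset.sum_insert hi]
    exact CF_add (h i) ih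

theorem sum_val {ι : Type*} (s : Finset ι) (φ : ι → R4 → F2) (x u v : R4) :
    (∑ i ∈ s, φ i) x u v = ∑ i ∈ s, φ i x u v := by
  classical
  induction s using Finset.induction_on with
  | empty => rfl
  | insert i s hi ih =>
    rw [Finset.sum_insert hi, Finset.sum_insert hi, ← ih]
    rfl

/-- additive functionals which vanish locally vanish -/
theorem local_zero {L : (R4 → F2) → ℝ} (hadd : ∀ φ ψ, CF φ → CF ψ → L (φ + ψ) = L φ + L ψ)
    (hloc : ∀ y, ∃ δ > 0, ∀ φ, CF φ → tsupport φ ⊆ ball y δ → L φ = 0) :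
    ∀ φ, CF φ → L φ = 0 := by
  classical
  intro φ hφ
  have hL0 : L 0 = 0 := by
    have := hadd 0 0 CF_zero CF_zero
    have h0 : (0 : R4 → F2) + 0 = 0 := by
      funext x
      ext u v
      show (0 : R4 → F2) x u v + (0 : R4 → F2) x u v = (0 : R4 → F2) x u v
      simp
    rw [h0] at this
    linarith
  have hsum : ∀ {ι : Type} (s : Finset ι) (ψ : ι → R4 → F2), (∀ i, CF (ψ i)) →
      L (∑ i ∈ s, ψ i) = ∑ i ∈ s, L (ψ i) := by
    intro ι s ψ h
    induction s using Finset.induction_on with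
    | empty => simpa using hL0
    | insert i s hi ih =>
      rw [Finset.sum_insert hi, Finset.sum_insert hi, hadd _ _ (h i) (CF_sum s ψ h), ih]
  choose δ hδ hL using hloc
  obtain ⟨t, ht⟩ := hφ.supp.isCompact.elim_nhds_subcover (fun y => ball y (δ y))
    fun y _ => ball_mem_nhds y (hδ y)
  obtain ⟨f, hf⟩ := PartitionOfUnity.exists_isSubordinate (s := tsupport φ) (isClosed_tsupport φ)
    (fun y : t => ball (y : R4) (δ y)) (fun _ => isOpen_ball) (by
      intro x hx
      obtain ⟨y, hy, hxy⟩ := mem_iUnion₂.1 (ht.2 hx)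
      exact mem_iUnion.2 ⟨⟨y, hy⟩, hxy⟩)
  set ψ : t → R4 → F2 := fun i x => f i x • φ x with hψ
  have hCF : ∀ i, CF (ψ i) := fun i => CF_smul (f i).continuous hφ
  have hval : ∀ i x u v, ψ i x u v = f i x * φ x u v := fun _ _ _ _ => rfl
  have heq : φ = ∑ i, ψ i := by
    funext x
    ext u v
    rw [sum_val]
    simp only [hval]
    rw [← Finset.sum_mul]
    by_cases hx : x ∈ tsupport φ
    · have h1 := f.sum_eq_one hx
      rw [finsum_eq_sum_of_fintype] at h1
      rw [h1, one_mul]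
    · have h1 : φ x = 0 := image_eq_zero_of_notMem_tsupport hx
      rw [h1]
      simp
  rw [heq, hsum _ _ hCF]
  refine Finset.sum_eq_zero fun i _ => hL (i : R4) _ (hCF i) ?_
  refine Subset.trans ?_ (hf i)
  apply closure_mono
  intro x hx
  by_contra hc
  have : f i x = 0 := by simpa using hc
  exact hx (by simp only [hψ]; rw [this, zsm])

/-- smallness -/
theorem ev_small {P : ℝ → Prop} (h : ∃ δ > 0, P δ) (hm : ∀ δ δ', δ' ≤ δ → P δ → P δ') :
    ∀ᶠ δ in 𝓝[>] (0 : ℝ), P δ := by
  obtain ⟨δ, hδ, h⟩ := h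
  filter_upwards [Ioo_mem_nhdsGT hδ] with δ' h' using hm _ _ h'.2.le h

/-- the current is a sum of tori -/
theorem global {D : Data} {S : ICur D} {M : ℕ} (T : Fin M → Tor D S.supp)
    (hcov : ∀ x ∈ S.supp, ∃ b, x ∈ Orb (T b)) (hdis : ∀ b b', b ≠ b' → Disjoint (Orb (T b)) (Orb (T b')))
    (m : Fin M → ℕ) (hm : ∀ b p q, Mul S (tr q ((T b).i p)) (m b)) (φ : R4 → F2) (hφ : CF φ) :
    S.T φ = ∑ b, (m b : ℝ) * RR (T b) φ := by
  have key := local_zero (L := fun φ => S.T φ - ∑ b, (m b : ℝ) * RR (T b) φ) ?_ ?_ φ hφ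
  · linarith
  · intro φ ψ hφ hψ
    rw [S.add φ ψ hφ hψ]
    have : ∀ b, (m b : ℝ) * RR (T b) (φ + ψ) = m b * RR (T b) φ + m b * RR (T b) ψ := fun b => by
      rw [RR_add _ hφ hψ]; ring
    simp only [this]
    rw [Finset.sum_add_distrib]
    ring
  · intro y
    suffices h : ∀ᶠ δ in 𝓝[>] (0 : ℝ), ∀ φ, CF φ → tsupport φ ⊆ ball y δ →
        S.T φ - ∑ b, (m b : ℝ) * RR (T b) φ = 0 by
      obtain ⟨δ, h1, h2⟩ := (h.and self_mem_nhdsWithin).exists
      exact ⟨δ, h2, h1⟩
    by_cases hy : y ∈ S.supp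
    · obtain ⟨b₀, hb₀⟩ := hcov y hy
      have hoff : ∀ᶠ δ in 𝓝[>] (0 : ℝ), ∀ b, b ≠ b₀ → ∀ φ : R4 → F2, tsupport φ ⊆ ball y δ →
          RR (T b) φ = 0 := by
        rw [eventually_all]
        intro b
        by_cases hb : b = b₀
        · exact Eventually.of_forall fun _ h => absurd hb h
        · have h1 := RR_off (T b) (y := y) fun h => (Set.disjoint_left.1 (hdis b b₀ hb)) h hb₀
          have h2 := ev_small h1 fun δ δ' h h3 φ hs => h3 φ (hs.trans (ball_subset_ball h))
          filter_upwards [h2] with δ h3 _ using h3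
      obtain ⟨q, p, rfl⟩ := hb₀
      have h1 := ev_small (cov_tor (T b₀) q p (hm b₀ p q)) fun δ δ' h h3 φ hφ hs =>
        h3 φ hφ (hs.trans (ball_subset_ball h))
      have h2 := ev_small (RR_on (T b₀) q p) fun δ δ' h h3 φ hφ hs =>
        h3 φ hφ (hs.trans (ball_subset_ball h))
      filter_upwards [hoff, h1, h2] with δ h3 h4 h5 φ hφ hs
      rw [Finset.sum_eq_single b₀ (fun b _ hb => by rw [h3 b hb φ hs, mul_zero])
        (fun h => absurd (Finset.mem_univ _) h), h4 φ hφ hs, h5 φ hφ hs, sub_self]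
    · have hoff : ∀ᶠ δ in 𝓝[>] (0 : ℝ), ∀ b, ∀ φ : R4 → F2, tsupport φ ⊆ ball y δ →
          RR (T b) φ = 0 := by
        rw [eventually_all]
        intro b
        have h1 := RR_off (T b) (y := y) fun h => hy (Orb_sub _ h)
        exact ev_small h1 fun δ δ' h h3 φ hs => h3 φ (hs.trans (ball_subset_ball h))
      have h1 : ∃ δ > 0, ∀ φ, CF φ → tsupport φ ⊆ ball y δ → S.T φ = 0 := by
        simp only [ICur.supp, mem_ofPred_eq, not_forall, not_exists, not_and, not_not] at hy
        obtain ⟨ε, hε, h⟩ := hy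
        exact ⟨ε, hε, h⟩
      have h2 := ev_small h1 fun δ δ' h h3 φ hφ hs => h3 φ hφ (hs.trans (ball_subset_ball h))
      filter_upwards [hoff, h2] with δ h3 h4 φ hφ hs
      rw [h4 φ hφ hs, Finset.sum_eq_zero fun b _ => by rw [h3 b φ hs, mul_zero], sub_self]

end Vale.Agent.P247.H663.Cls
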