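import Vale.Agent.P247.H663.Cls6

/-!
# P247, stage 2, package Z, `CLASS`, part 7: the class
-/

open scoped ContDiff Topology
open Set MeasureTheory Filter Metric

noncomputable section

namespace Vale.Agent.P247.H663.Cls

open Vale.Agent.P247.H74 Vale.Agent.P247.H574 Vale.Agent.P247.H690.END

/-! ## the cut-off function -/

/-- the tent function -/
def tent (t : ℝ) : ℝ := max 0 (1 - |t|)

theorem tent_continuous : Continuous tent := by unfold tent; fun_prop

theorem tent_zero {t : ℝ} (h : 1 ≤ |t|) : tent t = 0 := max_eq_left (by linarith)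

theorem tent_sum (t : ℝ) : ∑ j ∈ ({-⌊t⌋ - 1, -⌊t⌋} : Finset ℤ), tent (t + j) = 1 := by
  have h1 := Int.fract_nonneg t
  have h2 := Int.fract_lt_one t
  have h3 : t - ⌊t⌋ = Int.fract t := rfl
  rw [Finset.sum_pair (by omega)]
  push_cast
  have e1 : t + (-(⌊t⌋ : ℝ) - 1) = Int.fract t - 1 := by rw [← h3]; ring
  have e2 : t + -(⌊t⌋ : ℝ) = Int.fract t := by rw [← h3]; ring
  rw [e1, e2]
  unfold tent
  rw [abs_of_nonneg h1, abs_of_nonpos (by linarith), max_eq_right (by linarith),
    max_eq_right (by linarith)]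
  ring

theorem tent_off {t : ℝ} {j : ℤ} (h : j ∉ ({-⌊t⌋ - 1, -⌊t⌋} : Finset ℤ)) : tent (t + j) = 0 := by
  have h1 := Int.fract_nonneg t
  have h2 := Int.fract_lt_one t
  have h3 : t - ⌊t⌋ = Int.fract t := rfl
  simp only [Finset.mem_insert, Finset.mem_singleton, not_or] at h
  apply tent_zero
  rcases lt_or_gt_of_ne h.2 with h4 | h4
  · have h5 : j ≤ -⌊t⌋ - 2 := by omega
    have h6 : (j : ℝ) ≤ -⌊t⌋ - 2 := by exact_mod_cast h5
    rw [abs_of_nonpos (by linarith)]
    linarith
  · have h5 : -⌊t⌋ + 1 ≤ j := by omega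
    have h6 : -(⌊t⌋ : ℝ) + 1 ≤ j := by exact_mod_cast h5
    rw [abs_of_nonneg (by linarith)]
    linarith

/-- the cut-off function -/
def chi (x : R4) : ℝ := ∏ i, tent (x i)

theorem chi_continuous : Continuous chi := by
  unfold chi
  exact continuous_finsetProd _ fun i _ => tent_continuous.comp (continuous_apply i)

theorem chi_compact : HasCompactSupport chi := by
  refine HasCompactSupport.intro (isCompact_closedBall (0 : R4) 1) fun x hx => ?_
  rw [mem_closedBall_zero_iff, pi_norm_le_iff_of_nonneg zero_le_one] at hx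
  push Not at hx
  obtain ⟨i, hi⟩ := hx
  exact Finset.prod_eq_zero (Finset.mem_univ i) (tent_zero hi.le)

theorem chi_off (x : R4) {k : Fin 4 → ℤ}
    (h : k ∉ Fintype.piFinset fun i => ({-⌊x i⌋ - 1, -⌊x i⌋} : Finset ℤ)) : chi (tr k x) = 0 := by
  rw [Fintype.mem_piFinset] at h
  push Not at h
  obtain ⟨i, hi⟩ := h
  exact Finset.prod_eq_zero (Finset.mem_univ i) (tent_off hi)

theorem chi_sum (x : R4) :
    ∑ k ∈ Fintype.piFinset fun i => ({-⌊x i⌋ - 1, -⌊x i⌋} : Finset ℤ), chi (tr k x) = 1 := by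
  unfold chi tr
  rw [← Finset.prod_univ_sum (fun i => ({-⌊x i⌋ - 1, -⌊x i⌋} : Finset ℤ))
    fun i (j : ℤ) => tent (x i + j)]
  simp only [tent_sum, Finset.prod_const_one]

theorem chi_tsum (x : R4) : ∑' k : Fin 4 → ℤ, chi (tr k x) = 1 := by
  rw [tsum_eq_sum fun k hk => chi_off x hk, chi_sum]

theorem chi_support (x : R4) : (Function.support fun k : Fin 4 → ℤ => chi (tr k x)) ⊆
    (Fintype.piFinset fun i => ({-⌊x i⌋ - 1, -⌊x i⌋} : Finset ℤ) : Finset (Fin 4 → ℤ)) := by
  intro k hk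
  by_contra hc
  exact hk (chi_off x hc)

theorem chi_finsum (x : R4) : ∑ᶠ k : Fin 4 → ℤ, chi (tr k x) = 1 := by
  rw [finsum_eq_sum_of_support_subset _ (chi_support x), chi_sum]

/-! ## the class of a torus -/

section

variable {D : Data} {C : Set R4} (T : Tor D C)

/-- the periodic part -/
def pp (p : P2) : R4 := T.i p - (p.1 • vz (T.n 0) + p.2 • vz (T.n 1))

theorem pp_contDiff : ContDiff ℝ ∞ (pp T) :=
  T.smooth.sub ((contDiff_fst.smul contDiff_const).add (contDiff_snd.smul contDiff_const))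

theorem pp_per : Per (pp T) := by
  intro m n p
  unfold pp
  rw [per_both]
  funext i
  simp [tr, vz]
  ring

theorem fderiv_pp (p v : P2) :
    fderiv ℝ T.i p v = v.1 • vz (T.n 0) + v.2 • vz (T.n 1) + fderiv ℝ (pp T) p v := by
  have h1 : T.i = fun p => (p.1 • vz (T.n 0) + p.2 • vz (T.n 1)) + pp T p := by
    funext p
    unfold pp
    abel
  have h2 : HasFDerivAt (fun p : P2 => p.1 • vz (T.n 0) + p.2 • vz (T.n 1))
      (cb (vz (T.n 0)) (vz (T.n 1))) p := by
    have : (fun p : P2 => p.1 • vz (T.n 0) + p.2 • vz (T.n 1)) = cb (vz (T.n 0)) (vz (T.n 1)) := by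
      funext p
      rw [cb_apply]
    rw [this]
    exact ContinuousLinearMap.hasFDerivAt _
  have h3 := h2.add ((pp_contDiff T).differentiable (by simp) p).hasFDerivAt
  have h4 : HasFDerivAt T.i (cb (vz (T.n 0)) (vz (T.n 1)) + fderiv ℝ (pp T) p) p := by
    rw [h1]
    exact h3
  rw [h4.fderiv, add_apply, cb_apply]

theorem ds_pp (p : P2) : ds T.i p = vz (T.n 0) + ds (pp T) p := by
  unfold ds
  rw [fderiv_pp]
  simp

theorem dt_pp (p : P2) : dt T.i p = vz (T.n 1) + dt (pp T) p := by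
  unfold dt
  rw [fderiv_pp]
  simp

theorem fderiv_bil (κ : F2) {f g : P2 → R4} (hf : Differentiable ℝ f) (hg : Differentiable ℝ g)
    (p v : P2) : fderiv ℝ (fun p => κ (f p) (g p)) p v =
      κ (f p) (fderiv ℝ g p v) + κ (fderiv ℝ f p v) (g p) := by
  rw [(κ.hasFDerivAt_of_bilinear (hf p).hasFDerivAt (hg p).hasFDerivAt).fderiv]
  rfl

/-- Stokes for the periodic part -/
theorem mean_pp (κ : F2) (hκ : ∀ u, κ u u = 0) {f : P2 → R4} (hf : ContDiff ℝ ∞ f) (hp : Per f) :
    mean (fun p => κ (ds f p) (dt f p)) = 0 := by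
  have hsw : ∀ u v, κ v u = - κ u v := by
    intro u v
    have := hκ (u + v)
    simp only [map_add, add_apply] at this
    rw [hκ u, hκ v] at this
    linarith
  have hf2 : ContDiff ℝ 2 f := hf.of_le (WithTop.coe_le_coe.2 le_top)
  have hd1 : ContDiff ℝ 1 (ds f) := H350.contDiff_ds hf2 (by norm_num)
  have hd2 : ContDiff ℝ 1 (dt f) := H350.contDiff_dt hf2 (by norm_num)
  have hf1 : ContDiff ℝ 1 f := hf.of_le (by simp)
  have hc1 : ContDiff ℝ 1 fun p => κ (f p) (dt f p) := (κ.contDiff.comp hf1).clm_apply hd2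
  have hc2 : ContDiff ℝ 1 fun p => κ (f p) (ds f p) := (κ.contDiff.comp hf1).clm_apply hd1
  have h1 : ∀ p, ds (fun p => κ (f p) (dt f p)) p = κ (f p) (ds (dt f) p) + κ (ds f p) (dt f p) :=
    fun p => fderiv_bil κ (hf1.differentiable one_ne_zero) (hd2.differentiable one_ne_zero) p _
  have h2 : ∀ p, dt (fun p => κ (f p) (ds f p)) p = κ (f p) (dt (ds f) p) + κ (dt f p) (ds f p) :=
    fun p => fderiv_bil κ (hf1.differentiable one_ne_zero) (hd1.differentiable one_ne_zero) p _
  have h3 : ∀ p, κ (ds f p) (dt f p) = (1 / 2 : ℝ) * (ds (fun p => κ (f p) (dt f p)) p -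
      dt (fun p => κ (f p) (ds f p)) p) := by
    intro p
    rw [h1, h2, H350.ds_dt_comm hf2, hsw (ds f p) (dt f p)]
    ring
  have h4 : mean (fun p => κ (ds f p) (dt f p)) =
      (1 / 2 : ℝ) * (mean (ds fun p => κ (f p) (dt f p)) - mean (dt fun p => κ (f p) (ds f p))) := by
    rw [← H350.mean_sub (H350.continuous_ds hc1) (H350.continuous_dt hc2), ← H350.mean_mul]
    congr 1
    funext p
    exact h3 p
  have hp1 : Per fun p => κ (f p) (dt f p) := fun m n p => by
    simp only [hp m n p, H350.per_dt hp m n p]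
  have hp2 : Per fun p => κ (f p) (ds f p) := fun m n p => by
    simp only [hp m n p, H350.per_ds hp m n p]
  rw [h4, H350.mean_ds hc1 hp1, H350.mean_dt hc2 hp2]
  simp

/-- Stokes -/
theorem mean_class (κ : F2) (hκ : ∀ u, κ u u = 0) :
    mean (fun p => κ (ds T.i p) (dt T.i p)) = κ (vz (T.n 0)) (vz (T.n 1)) := by
  have hf := pp_contDiff T
  have hp := pp_per T
  have hf1 : ContDiff ℝ 1 (pp T) := hf.of_le (by simp)
  have hc1 : ContDiff ℝ 1 fun p => κ (vz (T.n 0)) (pp T p) :=
    (κ (vz (T.n 0))).contDiff.comp hf1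
  have hc2 : ContDiff ℝ 1 fun p => κ (pp T p) (vz (T.n 1)) :=
    (κ.contDiff.comp hf1).clm_apply contDiff_const
  have h1 : ∀ p, κ (vz (T.n 0)) (dt (pp T) p) = dt (fun p => κ (vz (T.n 0)) (pp T p)) p := by
    intro p
    have := fderiv_bil κ (f := fun _ => vz (T.n 0)) (differentiable_const _)
      (hf1.differentiable one_ne_zero) p (0, 1)
    unfold dt
    rw [this]
    simp
  have h2 : ∀ p, κ (ds (pp T) p) (vz (T.n 1)) = ds (fun p => κ (pp T p) (vz (T.n 1))) p := by
    intro p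
    have := fderiv_bil κ (g := fun _ => vz (T.n 1)) (hf1.differentiable one_ne_zero)
      (differentiable_const _) p (1, 0)
    unfold ds
    rw [this]
    simp
  have h3 : (fun p => κ (ds T.i p) (dt T.i p)) = fun p => κ (vz (T.n 0)) (vz (T.n 1)) +
      (dt (fun p => κ (vz (T.n 0)) (pp T p)) p + (ds (fun p => κ (pp T p) (vz (T.n 1))) p +
        κ (ds (pp T) p) (dt (pp T) p))) := by
    funext p
    rw [ds_pp, dt_pp, ← h1, ← h2]
    simp only [map_add, add_apply]
    ring
  have hp1 : Per fun p => κ (vz (T.n 0)) (pp T p) := fun m n p => by simp only [hp m n p]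
  have hp2 : Per fun p => κ (pp T p) (vz (T.n 1)) := fun m n p => by simp only [hp m n p]
  have hk1 : Continuous (dt fun p => κ (vz (T.n 0)) (pp T p)) := H350.continuous_dt hc1
  have hk2 : Continuous (ds fun p => κ (pp T p) (vz (T.n 1))) := H350.continuous_ds hc2
  have hk3 : Continuous fun p => κ (ds (pp T) p) (dt (pp T) p) :=
    (κ.continuous.comp (H350.continuous_ds hf1)).clm_apply (H350.continuous_dt hf1)
  have hk23 : Continuous fun p => ds (fun p => κ (pp T p) (vz (T.n 1))) p +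
      κ (ds (pp T) p) (dt (pp T) p) := hk2.add hk3
  have hk : Continuous fun p => dt (fun p => κ (vz (T.n 0)) (pp T p)) p +
      (ds (fun p => κ (pp T p) (vz (T.n 1))) p + κ (ds (pp T) p) (dt (pp T) p)) := hk1.add hk23
  rw [h3, H350.mean_add continuous_const hk, H350.mean_add hk1 hk23,
    H350.mean_add hk2 hk3, H350.mean_const, mean_pp κ hκ hf hp]
  have e1 : mean (fun p => dt (fun p => κ (vz (T.n 0)) (pp T p)) p) = 0 := H350.mean_dt hc1 hp1
  have e2 : mean (fun p => ds (fun p => κ (pp T p) (vz (T.n 1))) p) = 0 := H350.mean_ds hc2 hp2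
  rw [e1, e2]
  simp

/-- integration of a constant form -/
theorem RR_chi (κ : F2) (hκ : ∀ u, κ u u = 0) :
    RR T (fun x => chi x • κ) = κ (vz (T.n 0)) (vz (T.n 1)) := by
  rw [← mean_class T κ hκ]
  unfold RR
  congr 1
  funext p
  unfold gg
  have h1 : ∀ q : Fin 4 → ℤ, (chi (tr q (T.i p)) • κ) (ds T.i p) (dt T.i p) =
      chi (tr q (T.i p)) * κ (ds T.i p) (dt T.i p) := fun _ => rfl
  simp only [h1]
  rw [← finsum_mul, chi_finsum, one_mul]

end

/-- `CLASS` -/
theorem CLASS : CLASS_statement := by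
  intro D S hR hT
  obtain ⟨M, T, hcov, hdis⟩ := exists_reps hT
  choose m hm1 hm2 using fun b => Mul.const hR (T b)
  refine ⟨M, T, m, hm1, fun κ hκ => ?_⟩
  have hCF : CF fun x => chi x • κ :=
    CF_mk chi_continuous chi_compact continuous_const fun _ u => hκ u
  rw [← S.cls chi chi_continuous chi_compact chi_tsum κ hκ, global T hcov hdis m hm2 _ hCF]
  refine Finset.sum_congr rfl fun b _ => ?_
  rw [RR_chi _ κ hκ]

end Vale.Agent.P247.H663.Cls
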