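import Vale.Agent.P247.H74.Sta

/-!
# P247, package S: a torus does not coincide locally with a translate of itself
-/

open scoped ContDiff Topology
open Set MeasureTheory Filter Metric

noncomputable section

namespace Vale.Agent.P247.H663

open Vale.Agent.P247.H74

/-! ## Lattices -/

/-- `s + t τ` -/
def inv (τ : ℂ) (p : P2) : ℂ := (p.1 : ℂ) + p.2 * τ

theorem continuous_inv (τ : ℂ) : Continuous (inv τ) := by
  unfold inv
  fun_prop

theorem inv_coord (τ : ℂ) (hτ : 0 < τ.im) (z : ℂ) : inv τ (coord τ z) = z := by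
  unfold inv coord
  have h := hτ.ne'
  apply Complex.ext
  · simp
    ring
  · simp
    field_simp

theorem coord_inv (τ : ℂ) (hτ : 0 < τ.im) (p : P2) : coord τ (inv τ p) = p := by
  unfold inv coord
  have h := hτ.ne'
  ext
  · simp
    field_simp
    ring
  · simp
    field_simp

theorem coord_sub (τ z w : ℂ) : coord τ (z - w) = coord τ z - coord τ w := by
  unfold coord
  ext
  · simp
    ring
  · simp
    ring

theorem coord_add (τ z w : ℂ) : coord τ (z + w) = coord τ z + coord τ w := by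
  unfold coord
  ext
  · simp
    ring
  · simp
    ring

theorem coord_lat (τ : ℂ) (hτ : 0 < τ.im) (m n : ℤ) : coord τ (m + n * τ) = ((m : ℝ), (n : ℝ)) := by
  have h : ((m : ℂ) + n * τ) = inv τ ((m : ℝ), (n : ℝ)) := by
    unfold inv
    push_cast
    rfl
  rw [h, coord_inv τ hτ]

theorem continuous_coord (τ : ℂ) : Continuous (coord τ) := by
  unfold coord
  fun_prop

/-- a fundamental domain -/
def fd (τ : ℂ) : Set ℂ := inv τ '' Icc (0 : P2) 1

theorem isCompact_fd (τ : ℂ) : IsCompact (fd τ) :=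
  isCompact_Icc.image (continuous_inv τ)

theorem exists_fd (τ : ℂ) (hτ : 0 < τ.im) (z : ℂ) : ∃ m n : ℤ, z + m + n * τ ∈ fd τ := by
  refine ⟨-⌊(coord τ z).1⌋, -⌊(coord τ z).2⌋, ?_⟩
  refine ⟨(Int.fract (coord τ z).1, Int.fract (coord τ z).2), ?_, ?_⟩
  · constructor
    · exact ⟨Int.fract_nonneg _, Int.fract_nonneg _⟩
    · exact ⟨(Int.fract_lt_one _).le, (Int.fract_lt_one _).le⟩
  · have h := inv_coord τ hτ z
    have h1 : inv τ (Int.fract (coord τ z).1, Int.fract (coord τ z).2) =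
        inv τ (coord τ z) + ((-⌊(coord τ z).1⌋ : ℤ) : ℂ) + ((-⌊(coord τ z).2⌋ : ℤ) : ℂ) * τ := by
      unfold inv Int.fract
      push_cast
      ring
    rw [h1, h]

theorem norm_le_lin (τ : ℂ) (p : P2) : ‖inv τ p‖ ≤ (1 + ‖τ‖) * ‖lin p‖ := by
  have h1 : |p.1| ≤ ‖lin p‖ := by
    have := norm_le_pi_norm (lin p) 2
    simpa [lin] using this
  have h2 : |p.2| ≤ ‖lin p‖ := by
    have := norm_le_pi_norm (lin p) 3
    simpa [lin] using this
  unfold inv
  calc ‖(p.1 : ℂ) + p.2 * τ‖ ≤ ‖(p.1 : ℂ)‖ + ‖(p.2 : ℂ) * τ‖ := norm_add_le _ _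
    _ = |p.1| + |p.2| * ‖τ‖ := by
        rw [norm_mul, Complex.norm_real, Complex.norm_real, Real.norm_eq_abs, Real.norm_eq_abs]
    _ ≤ ‖lin p‖ + ‖lin p‖ * ‖τ‖ := by
        gcongr
    _ = (1 + ‖τ‖) * ‖lin p‖ := by ring

theorem lin_sub (p q : P2) : lin (p - q) = lin p - lin q := by
  unfold lin
  ext i
  fin_cases i <;> simp

theorem lin_add (p q : P2) : lin (p + q) = lin p + lin q := by
  unfold lin
  ext i
  fin_cases i <;> simp

theorem continuous_lin : Continuous lin := by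
  unfold lin
  refine continuous_pi fun i => ?_
  fin_cases i <;> simp <;> fun_prop

theorem lin_int (m n : ℤ) : lin ((m : ℝ), (n : ℝ)) = (m : ℝ) • e 2 + (n : ℝ) • e 3 := by
  unfold lin e
  ext i
  fin_cases i <;> simp

/-- a lift minus its linear part is bounded -/
theorem lift_bdd {τ : ℂ} (hτ : 0 < τ.im) {u : ℂ → R4} (hu : Continuous u) (hl : Lift τ u) :
    ∃ C : ℝ, ∀ z, ‖u z - lin (coord τ z)‖ ≤ C := by
  have hc : Continuous fun z => u z - lin (coord τ z) :=
    hu.sub (continuous_lin.comp (continuous_coord τ))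
  obtain ⟨C, hC⟩ := (isCompact_fd τ).exists_bound_of_continuousOn hc.continuousOn
  refine ⟨C, fun z => ?_⟩
  obtain ⟨m, n, hmn⟩ := exists_fd τ hτ z
  have h1 := hC _ hmn
  have h2 : coord τ (z + m + n * τ) = coord τ z + ((m : ℝ), (n : ℝ)) := by
    rw [add_assoc, coord_add, coord_lat τ hτ]
  rw [hl m n z, h2, lin_add, lin_int] at h1
  have h3 : u z + (m : ℝ) • e 2 + (n : ℝ) • e 3 - (lin (coord τ z) + ((m : ℝ) • e 2 + (n : ℝ) • e 3))
      = u z - lin (coord τ z) := by abel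
  rwa [h3] at h1

/-- points with equal images under lifts are close -/
theorem lift_close {τ τ' : ℂ} (hτ : 0 < τ.im) (hτ' : 0 < τ'.im) {u v : ℂ → R4}
    (hu : Continuous u) (hv : Continuous v) (hl : Lift τ u) (hl' : Lift τ' v) :
    ∃ C : ℝ, 0 ≤ C ∧ ∀ z w, u z = v w → ‖lin (coord τ z) - lin (coord τ' w)‖ ≤ C := by
  obtain ⟨C, hC⟩ := lift_bdd hτ hu hl
  obtain ⟨C', hC'⟩ := lift_bdd hτ' hv hl'
  have h0 : 0 ≤ C := (norm_nonneg _).trans (hC 0)
  have h0' : 0 ≤ C' := (norm_nonneg _).trans (hC' 0)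
  refine ⟨C + C', by positivity, fun z w h => ?_⟩
  have h1 : lin (coord τ z) - lin (coord τ' w) =
      (v w - lin (coord τ' w)) - (u z - lin (coord τ z)) := by
    rw [h]; abel
  rw [h1]
  calc _ ≤ ‖v w - lin (coord τ' w)‖ + ‖u z - lin (coord τ z)‖ := norm_sub_le _ _
    _ ≤ C' + C := add_le_add (hC' w) (hC z)
    _ = C + C' := by ring

theorem lift_close_self {τ : ℂ} (hτ : 0 < τ.im) {u : ℂ → R4}
    (hu : Continuous u) (hl : Lift τ u) :
    ∃ C : ℝ, 0 ≤ C ∧ ∀ z w, u z = u w → ‖w - z‖ ≤ C := by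
  obtain ⟨C, hC0, hC⟩ := lift_close hτ hτ hu hu hl hl
  refine ⟨(1 + ‖τ‖) * C, by positivity, fun z w h => ?_⟩
  have h1 := hC w z h.symm
  rw [← lin_sub, ← coord_sub] at h1
  calc ‖w - z‖ = ‖inv τ (coord τ (w - z))‖ := by rw [inv_coord τ hτ]
    _ ≤ (1 + ‖τ‖) * ‖lin (coord τ (w - z))‖ := norm_le_lin _ _
    _ ≤ _ := by gcongr

/-! ## Topology -/

theorem fin_of_isol {S K : Set ℂ} (hK : IsCompact K) (h : ∀ z₀, ∀ᶠ z in 𝓝[≠] z₀, z ∉ S) :
    (S ∩ K).Finite := by
  have hU : ∀ x ∈ K, {z : ℂ | z ≠ x → z ∉ S} ∈ 𝓝 x := fun x _ => by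
    have := eventually_nhdsWithin_iff.1 (h x)
    filter_upwards [this] with z hz hne
    exact hz hne
  obtain ⟨t, -, ht⟩ := hK.elim_nhds_subcover (fun x => {z : ℂ | z ≠ x → z ∉ S}) hU
  refine t.finite_toSet.subset fun z hz => ?_
  obtain ⟨x, hx, hzx⟩ := mem_iUnion₂.1 (ht hz.2)
  by_contra hne
  have : z ≠ x := fun h => hne (h ▸ hx)
  exact hzx this hz.1

/-- a nonempty bounded open set of the plane has infinite frontier -/
theorem frontier_infinite {Δ : Set ℂ} (ho : IsOpen Δ) (hb : Bornology.IsBounded Δ)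
    (hn : Δ.Nonempty) : (frontier Δ).Infinite := by
  intro hf
  have hc : IsConnected (frontier Δ)ᶜ :=
    hf.countable.isConnected_compl_of_one_lt_rank (by
      rw [Complex.rank_real_complex]
      norm_num)
  obtain ⟨z₀, hz₀⟩ : ∃ z₀, z₀ ∉ closure Δ := by
    by_contra hcon
    push Not at hcon
    have h1 : closure Δ = univ := eq_univ_of_forall hcon
    have h2 : Bornology.IsBounded (univ : Set ℂ) := h1 ▸ hb.closure
    exact NormedSpace.unbounded_univ ℝ ℂ h2
  have h1 := hc.isPreconnected Δ (closure Δ)ᶜ ho isClosed_closure.isOpen_compl ?_ ?_ ?_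
  · obtain ⟨z, -, hz1, hz2⟩ := h1
    exact hz2 (subset_closure hz1)
  · intro z hz
    by_cases h : z ∈ closure Δ
    · left
      by_contra hne
      exact hz ⟨h, fun hi => hne (interior_subset hi)⟩
    · exact Or.inr h
  · obtain ⟨z, hz⟩ := hn
    refine ⟨z, fun hfr => ?_, hz⟩
    rw [ho.frontier_eq] at hfr
    exact hfr.2 hz
  · exact ⟨z₀, fun hfr => hz₀ hfr.1, hz₀⟩

/-! ## Translations -/

theorem fderiv_translate (u : ℂ → R4) (d z : ℂ) :
    fderiv ℝ (fun w => u (w + d)) z = fderiv ℝ u (z + d) :=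
  fderiv_comp_add_right d

theorem JH_translate {D : Data} {u : ℂ → R4} (hu : JH D u) (d : ℂ) :
    JH D (fun w => u (w + d)) := by
  refine ⟨hu.1.comp (contDiff_id.add contDiff_const), fun z => ?_⟩
  rw [fderiv_translate]
  exact hu.2 (z + d)

/-- the value of a lift at a lattice translate -/
theorem lift_lat {τ : ℂ} {u : ℂ → R4} (hl : Lift τ u) (m n : ℤ) (z : ℂ) :
    u (z + (m + n * τ)) = u z + ((m : ℝ) • e 2 + (n : ℝ) • e 3) := by
  rw [← add_assoc, hl m n z, add_assoc]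

theorem fderiv_lat {τ : ℂ} {u : ℂ → R4} (hl : Lift τ u) (m n : ℤ) (z : ℂ) :
    fderiv ℝ u (z + (m + n * τ)) = fderiv ℝ u z := by
  rw [← fderiv_translate]
  have : (fun w => u (w + (m + n * τ))) = fun w => u w + ((m : ℝ) • e 2 + (n : ℝ) • e 3) := by
    funext w
    exact lift_lat hl m n w
  rw [this, fderiv_add_const]

theorem LocIn.translate {u v : ℂ → R4} {z₀ w₀ : ℂ} {d d' : ℂ} {a : R4}
    (hu : ∀ z, u (z + d) = u z + a) (hv : ∀ z, v (z + d') = v z + a) (h : LocIn u v z₀ w₀) :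
    LocIn u v (z₀ + d) (w₀ + d') := by
  obtain ⟨ε, hε, ζ, hζ, h0, h1⟩ := h
  refine ⟨ε, hε, fun z => ζ (z - d) + d', ?_, ?_, fun z hz => ?_⟩
  · refine DifferentiableOn.add_const _ (hζ.comp (by fun_prop) fun z hz => ?_)
    rw [mem_ball, dist_eq_norm] at hz ⊢
    rwa [show z - d - z₀ = z - (z₀ + d) by ring]
  · simp [h0]
  · have h2 : z - d ∈ ball z₀ ε := by
      rw [mem_ball, dist_eq_norm] at hz ⊢
      rwa [show z - d - z₀ = z - (z₀ + d) by ring]
    have h3 := h1 _ h2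
    rw [hv, ← h3, ← hu, sub_add_cancel]

/-- local coincidence persists at nearby points -/
theorem LocIn.near {u v : ℂ → R4} {z₀ w₀ : ℂ} (h : LocIn u v z₀ w₀) :
    ∃ ε > 0, ∃ ζ : ℂ → ℂ, DifferentiableOn ℂ ζ (ball z₀ ε) ∧ ζ z₀ = w₀ ∧
      ∀ z ∈ ball z₀ ε, u z = v (ζ z) ∧ LocIn u v z (ζ z) := by
  obtain ⟨ε, hε, ζ, hζ, h0, h1⟩ := h
  refine ⟨ε, hε, ζ, hζ, h0, fun z hz => ⟨h1 z hz, ?_⟩⟩
  obtain ⟨δ, hδ, hδ'⟩ := Metric.isOpen_iff.1 isOpen_ball z hz
  exact ⟨δ, hδ, ζ, hζ.mono hδ', rfl, fun w hw => h1 w (hδ' hw)⟩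

theorem S (hL1 : L1_statement) (hP5 : P5_statement) (hP6 : P6_statement) : S_statement := by
  intro D u τ hu hτ hl z₀ z₀' hne hi hi' hloc
  have hcont : Continuous u := hu.1.continuous
  have hcd : Continuous fun z => fderiv ℝ u z 1 :=
    (hu.1.continuous_fderiv (by simp)).clm_apply continuous_const
  -- the relation
  let P : ℂ → ℂ → Prop := fun z z' => z ≠ z' ∧ fderiv ℝ u z 1 ≠ 0 ∧ fderiv ℝ u z' 1 ≠ 0 ∧
    LocIn u u z z'
  have hPu : ∀ z z', P z z' → u z = u z' := by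
    rintro z z' ⟨-, -, -, ε, hε, ζ, -, h0, h1⟩
    rw [h1 z (mem_ball_self hε), h0]
  have hPt : ∀ z z' (m n : ℤ), P z z' → P (z + (m + n * τ)) (z' + (m + n * τ)) := by
    rintro z z' m n ⟨h1, h2, h3, h4⟩
    refine ⟨fun h => h1 (add_right_cancel h), ?_, ?_, ?_⟩
    · rwa [fderiv_lat hl]
    · rwa [fderiv_lat hl]
    · exact LocIn.translate (lift_lat hl m n) (lift_lat hl m n) h4
  obtain ⟨C, hC0, hC⟩ := lift_close_self hτ hcont hl
  let Δ : Set ℂ := {d | ∃ z, P z (z + d)}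
  have hΔb : Bornology.IsBounded Δ := by
    refine isBounded_closedBall (x := (0 : ℂ)) (r := C) |>.subset ?_
    rintro d ⟨z, hz⟩
    have := hC z (z + d) (hPu _ _ hz)
    rw [add_sub_cancel_left] at this
    simpa using this
  have hΔn : Δ.Nonempty := ⟨z₀' - z₀, z₀, by
    show P z₀ (z₀ + (z₀' - z₀))
    rw [add_sub_cancel]
    exact ⟨hne, hi, hi', hloc⟩⟩
  have hΔo : IsOpen Δ := by
    rw [isOpen_iff_mem_nhds]
    rintro d ⟨z, hz⟩
    obtain ⟨hn, h1, h2, h3⟩ := hz
    obtain ⟨ε, hε, ζ, hζ, h0, h4⟩ := LocIn.near h3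
    have han : AnalyticAt ℂ (fun w => ζ w - w) z :=
      ((hζ.sub differentiableOn_id).analyticAt (ball_mem_nhds z hε))
    have hζc : ContinuousAt ζ z := (hζ.differentiableAt (ball_mem_nhds z hε)).continuousAt
    rcases han.eventually_constant_or_nhds_le_map_nhds with hco | hop
    · exfalso
      have h5 : ∀ᶠ w in 𝓝 z, u w = u (w + d) := by
        filter_upwards [hco, ball_mem_nhds z hε] with w hw hw'
        have h6 := (h4 w hw').1
        have h7 : ζ w = w + d := by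
          have : ζ w - w = d := by
            rw [hw, h0]; ring
          rw [← this]; ring
        rw [h6, h7]
      have h6 : u = fun w => u (w + d) :=
        hP5 D u (fun w => u (w + d)) hu (JH_translate hu d) ⟨z, h5⟩
      have hd : d ≠ 0 := fun h => hn (by rw [h, add_zero])
      have h7 : ∀ k : ℕ, u (k * d) = u 0 := by
        intro k
        induction k with
        | zero => simp
        | succ k ih =>
            rw [← ih]
            have := congrFun h6 (k * d)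
            rw [this]
            push_cast
            ring_nf
      obtain ⟨k, hk⟩ := exists_nat_gt (C / ‖d‖)
      have h8 := hC 0 (k * d) (h7 k).symm
      rw [sub_zero, norm_mul, Complex.norm_natCast] at h8
      have hd' : 0 < ‖d‖ := norm_pos_iff.2 hd
      rw [div_lt_iff₀ hd'] at hk
      linarith
    · have h5 : ∀ᶠ w in 𝓝 z, P w (ζ w) := by
        have e1 : ∀ᶠ w in 𝓝 z, w ≠ ζ w := by
          have : ContinuousAt (fun w => ζ w - w) z := hζc.sub continuousAt_id
          have h6 : (fun w => ζ w - w) z ≠ 0 := by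
            show ζ z - z ≠ 0
            rw [h0]
            intro h
            exact hn (sub_eq_zero.1 h).symm
          filter_upwards [this.eventually_ne h6] with w hw h
          exact hw (by simpa using sub_eq_zero.2 h.symm)
        have e2 : ∀ᶠ w in 𝓝 z, fderiv ℝ u w 1 ≠ 0 := hcd.continuousAt.eventually_ne h1
        have e3 : ∀ᶠ w in 𝓝 z, fderiv ℝ u (ζ w) 1 ≠ 0 := by
          have : ContinuousAt (fun w => fderiv ℝ u (ζ w) 1) z :=
            ContinuousAt.comp (f := ζ) (g := fun w => fderiv ℝ u w 1) hcd.continuousAt hζc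
          exact this.eventually_ne (by rw [h0]; exact h2)
        filter_upwards [e1, e2, e3, ball_mem_nhds z hε] with w h6 h7 h8 h9
        exact ⟨h6, h7, h8, (h4 w h9).2⟩
      have h6 : (fun w => ζ w - w) '' {w | P w (ζ w)} ∈ 𝓝 ((fun w => ζ w - w) z) :=
        hop (image_mem_map h5)
      have h7 : (fun w => ζ w - w) z = d := by
        show ζ z - z = d
        rw [h0]; ring
      rw [h7] at h6
      refine mem_of_superset h6 ?_
      rintro _ ⟨w, hw, rfl⟩
      refine ⟨w, ?_⟩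
      show P w (w + (ζ w - w))
      rw [add_sub_cancel]
      exact hw
  -- the frontier is finite
  obtain ⟨B, hB⟩ := (isCompact_fd τ).isBounded.exists_norm_le
  let R : ℝ := B + C
  let Zc : Set ℂ := {z | fderiv ℝ u z 1 = 0} ∩ closedBall 0 R
  have hconst : ∃ z w, u z ≠ u w := ⟨0, 0 + (1 : ℤ) + (0 : ℤ) * τ, by
    rw [hl 1 0 0]
    intro h
    have h1 := congrFun h 2
    simp [e] at h1⟩
  have hZc : Zc.Finite := fin_of_isol (isCompact_closedBall _ _) fun z₁ => by
    filter_upwards [hP6 D u hu hconst z₁] with z hz h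
    exact hz.1 h
  let Bs : Set ℂ := ⋃ z ∈ Zc, ({w | u w = u z} ∩ closedBall 0 R)
  have hBs : Bs.Finite := hZc.biUnion fun z _ =>
    fin_of_isol (isCompact_closedBall _ _) fun z₁ => by
      by_cases h : u z₁ = u z
      · filter_upwards [hP6 D u hu hconst z₁] with w hw hw'
        exact hw.2 (hw'.trans h.symm)
      · exact (hcont.continuousAt.eventually_ne h).filter_mono nhdsWithin_le_nhds
  have hfr : frontier Δ ⊆ insert 0 ((fun p : ℂ × ℂ => p.2 - p.1) '' (Bs ×ˢ Bs)) := by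
    intro d hd
    have hdn : d ∉ Δ := by
      rw [hΔo.frontier_eq] at hd
      exact hd.2
    obtain ⟨dn, hdn1, hdn2⟩ := mem_closure_iff_seq_limit.1 hd.1
    choose zn hzn using hdn1
    choose mm nn hmn using fun n => exists_fd τ hτ (zn n)
    let wn : ℕ → ℂ := fun n => zn n + mm n + nn n * τ
    have hwn : ∀ n, wn n ∈ fd τ := hmn
    have hPw : ∀ n, P (wn n) (wn n + dn n) := fun n => by
      have := hPt _ _ (mm n) (nn n) (hzn n)
      have e1 : wn n = zn n + (mm n + nn n * τ) := by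
        show zn n + mm n + nn n * τ = _
        ring
      have e2 : wn n + dn n = zn n + dn n + (mm n + nn n * τ) := by
        rw [e1]; ring
      rw [e1] at e2 ⊢
      rw [e2]
      exact this
    obtain ⟨z, hz, φ, hφ, hlim⟩ := (isCompact_fd τ).tendsto_subseq hwn
    have hlim' : Tendsto (fun n => wn (φ n) + dn (φ n)) atTop (𝓝 (z + d)) :=
      hlim.add (hdn2.comp hφ.tendsto_atTop)
    have huz : u z = u (z + d) := by
      refine tendsto_nhds_unique ((hcont.tendsto z).comp hlim) ?_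
      have : (u ∘ wn ∘ φ) = fun n => u (wn (φ n) + dn (φ n)) := by
        funext n
        exact hPu _ _ (hPw (φ n))
      rw [this]
      exact (hcont.tendsto (z + d)).comp hlim'
    have hzR : z ∈ closedBall (0 : ℂ) R := by
      have := hB z hz
      simp only [mem_closedBall, dist_zero_right]
      show ‖z‖ ≤ B + C
      linarith
    have hzR' : z + d ∈ closedBall (0 : ℂ) R := by
      have h1 := hB z hz
      have h2 := hC z (z + d) huz
      rw [add_sub_cancel_left] at h2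
      simp only [mem_closedBall, dist_zero_right]
      calc ‖z + d‖ ≤ ‖z‖ + ‖d‖ := norm_add_le _ _
        _ ≤ B + C := add_le_add h1 h2
    by_cases hd0 : d = 0
    · exact Or.inl hd0
    right
    by_cases hcz : fderiv ℝ u z 1 = 0
    · refine ⟨(z, z + d), ⟨?_, ?_⟩, by simp⟩
      · exact mem_biUnion (x := z) ⟨hcz, hzR⟩ ⟨rfl, hzR⟩
      · exact mem_biUnion (x := z) ⟨hcz, hzR⟩ ⟨huz.symm, hzR'⟩
    by_cases hcz' : fderiv ℝ u (z + d) 1 = 0
    · refine ⟨(z, z + d), ⟨?_, ?_⟩, by simp⟩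
      · exact mem_biUnion (x := z + d) ⟨hcz', hzR'⟩ ⟨huz, hzR⟩
      · exact mem_biUnion (x := z + d) ⟨hcz', hzR'⟩ ⟨rfl, hzR'⟩
    exfalso
    rcases hL1 D u u z (z + d) hu hu huz hcz' with h | ⟨⟨ε, hε, hiso⟩, -⟩
    · exact hdn ⟨z, fun h' => hd0 (by simpa using h'), hcz, hcz', h⟩
    · have e1 : ∀ᶠ n in atTop, (wn ∘ φ) n ∈ ball z ε := hlim (ball_mem_nhds _ hε)
      have e2 : ∀ᶠ n in atTop, wn (φ n) + dn (φ n) ∈ ball (z + d) ε := hlim' (ball_mem_nhds _ hε)
      obtain ⟨n, h1, h2⟩ := (e1.and e2).exists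
      obtain ⟨h3, h3'⟩ := hiso _ h1 _ h2 (hPu _ _ (hPw (φ n)))
      have h4 := hPw (φ n)
      rw [h3'] at h4
      rw [show wn (φ n) = z from h3] at h4
      exact hdn ⟨z, h4⟩
  exact frontier_infinite hΔo hΔb hΔn
    (((hBs.prod hBs).image _).insert 0 |>.subset hfr)

end Vale.Agent.P247.H663
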