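import Vale.Agent.P247.H663.Cls7
import Vale.Agent.P247.H690.END.Tori
import Vale.Agent.P247.H383.ZEND.Pair
import Vale.Agent.P247.H383.ZEND.Cone
import Vale.Agent.P247.H383.ZEND.Last

/-!
# P247, stage 2, package Z: assembly
-/

noncomputable section

namespace Vale.Agent.P247.H663

open Vale.Agent.P247.H74 Vale.Agent.P247.H574 Vale.Agent.P247.H690.END

/-- package `Z` -/
theorem Z : Z_statement := by
  intro D hG S th hF
  obtain ⟨M, T, m, hm, hκ⟩ := Cls.CLASS D S
    (fun x hx => by obtain ⟨u, k, ε, h, h1, -⟩ := hF.hol x hx; exact ⟨u, k, ε, h1⟩)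
    (H690.END.TORI D S th hF)
  obtain ⟨i, hi⟩ := H383.ZEND.CONE D hG M (fun i => (T i).n) m hm
    (fun i j => (H383.ZEND.PAIR D S.supp (T i)).1 j) (fun i => (H383.ZEND.PAIR D S.supp (T i)).2) hκ
  exact H383.ZEND.LAST D S.supp (T i) hi

end Vale.Agent.P247.H663
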